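import Vale.Agent.P065.UB.Rank

/-!
# P065, upper bound: the exact flow of the `k`-edges through a set of points (helper102)

`flow`: between two times the number of points of `A` among the `k + 1` lowest points of `P`
changes by the number of `k`-edges entering `A` minus the number of `k`-edges leaving `A`.
-/

set_option autoImplicit false

namespace Vale.Agent.P065.UB.H102

open Finset Vale.Agent.P065.UB Vale.Agent.P065.UB.RankAux

/-- if no pair `a ∈ L`, `b ∉ L` is swapped before the time `s`, then `L` is the set of the
lowest points just before the time `s`. -/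
theorem stay {P : Finset Pt} (hP : Good P) {m s : ℝ} {L : Finset Pt} (hL : LowA P m L)
    (hms : m < s)
    (hno : ∀ a ∈ L, ∀ b ∈ P, b ∉ L → a.1 < b.1 → m < sl a b → s ≤ sl a b) : LowB P s L := by
  refine ⟨hL.1, fun a ha b hb hbL => ?_⟩
  have hab : a ≠ b := fun h => hbL (h ▸ ha)
  have h1 := hL.2 a ha b hb hbL
  rcases lt_trichotomy a.1 b.1 with hx | hx | hx
  · have h2 : m < sl a b := by
      rcases h1 with h1 | ⟨_, h1⟩
      · exact (ht_lt_iff hx m).1 h1
      · exact absurd h1 (not_lt.2 hx.le)
    have h3 := hno a ha b hb hbL hx h2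
    rcases h3.lt_or_eq with h4 | h4
    · exact Or.inl ((ht_lt_iff hx s).2 h4)
    · exact Or.inr ⟨(ht_eq_iff hx s).2 h4, hx⟩
  · exact absurd (hP.xinj a (hL.1 ha) b hb hx) hab
  · have h2 : sl b a ≤ m := by
      rcases h1 with h1 | ⟨h1, _⟩
      · exact ((lt_ht_iff hx m).1 h1).le
      · exact ((ht_eq_iff hx m).1 h1.symm).ge
    exact Or.inl ((lt_ht_iff hx s).2 (lt_of_le_of_lt h2 hms))

/-- a `k`-edge whose time is not later than the first swap joins `L` to its complement -/
theorem edge_of_stay {P : Finset Pt} (hP : Good P) {k : ℕ} {L : Finset Pt} {p q : Pt}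
    (hL : LowB P (sl p q) L) (hc : #L = k + 1) (he : (p, q) ∈ Ed P k) : p ∈ L ∧ q ∉ L := by
  classical
  obtain ⟨_, h2, _, h4⟩ := low_of_edge hP he
  have hx := (mem_Ed.1 he).2.2.1
  have := hL.eq h2 (by rw [hc, h4])
  rw [this]
  refine ⟨Finset.mem_insert_self _ _, fun h => ?_⟩
  rcases Finset.mem_insert.1 h with h | h
  · rw [h] at hx; exact lt_irrefl _ hx
  · have := (Finset.mem_filter.1 h).2
    rw [(ht_eq_iff hx (sl p q)).2 rfl] at this
    exact lt_irrefl _ this

open Classical in
/-- the `k`-edges of slope in `(m₁, m₂)` which enter `A` -/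
noncomputable def InE (P : Finset Pt) (k : ℕ) (A : Finset Pt) (m₁ m₂ : ℝ) : Finset (Pt × Pt) :=
  {e ∈ Ed P k | (e.1 ∉ A ∧ e.2 ∈ A) ∧ m₁ < sl e.1 e.2 ∧ sl e.1 e.2 < m₂}

open Classical in
/-- the `k`-edges of slope in `(m₁, m₂)` which leave `A` -/
noncomputable def OutE (P : Finset Pt) (k : ℕ) (A : Finset Pt) (m₁ m₂ : ℝ) : Finset (Pt × Pt) :=
  {e ∈ Ed P k | (e.1 ∈ A ∧ e.2 ∉ A) ∧ m₁ < sl e.1 e.2 ∧ sl e.1 e.2 < m₂}

open Classical in
/-- **the flow** -/
theorem flow {P : Finset Pt} (hP : Good P) {k : ℕ} (A : Finset Pt) {m₂ : ℝ} {L' : Finset Pt}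
    (hL' : LowB P m₂ L') (hc' : #L' = k + 1) :
    ∀ (n : ℕ) (m₁ : ℝ) (L : Finset Pt),
      #{e ∈ Ed P k | m₁ < sl e.1 e.2 ∧ sl e.1 e.2 < m₂} < n → m₁ < m₂ → LowA P m₁ L →
      #L = k + 1 →
      #(L ∩ A) + #(InE P k A m₁ m₂) = #(L' ∩ A) + #(OutE P k A m₁ m₂) := by
  intro n
  induction n with
  | zero => intro m₁ L hn; omega
  | succ n ih =>
    intro m₁ L hn hm hL hc
    set X : Finset (Pt × Pt) :=
      {e ∈ L ×ˢ (P \ L) | e.1.1 < e.2.1 ∧ m₁ < sl e.1 e.2 ∧ sl e.1 e.2 < m₂} with hX
    have memX : ∀ a b, (a, b) ∈ X ↔ a ∈ L ∧ b ∈ P ∧ b ∉ L ∧ a.1 < b.1 ∧ m₁ < sl a b ∧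
        sl a b < m₂ := by
      intro a b
      simp only [hX, Finset.mem_filter, Finset.mem_product, Finset.mem_sdiff]
      tauto
    rcases X.eq_empty_or_nonempty with hE | hE
    · -- nothing happens
      have hst : ∀ s, m₁ < s → s ≤ m₂ → LowB P s L := by
        intro s hs1 hs2
        refine stay hP hL hs1 fun a ha b hb hbL hx h2 => ?_
        by_contra h3
        have : (a, b) ∈ X := (memX a b).2 ⟨ha, hb, hbL, hx, h2, (not_le.1 h3).trans_le hs2⟩
        rw [hE] at this
        exact absurd this (Finset.notMem_empty _)
      have hno : ∀ e ∈ Ed P k, m₁ < sl e.1 e.2 → sl e.1 e.2 < m₂ → False := by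
        rintro ⟨p, q⟩ he h1 h2
        obtain ⟨h3, h4⟩ := edge_of_stay hP (hst _ h1 h2.le) hc he
        obtain ⟨_, hq, hx, _⟩ := mem_Ed.1 he
        have : (p, q) ∈ X := (memX p q).2 ⟨h3, hq, h4, hx, h1, h2⟩
        rw [hE] at this
        exact absurd this (Finset.notMem_empty _)
      have h1 : InE P k A m₁ m₂ = ∅ := by
        unfold InE
        rw [Finset.filter_eq_empty_iff]
        rintro e he ⟨_, h1, h2⟩
        exact hno e he h1 h2
      have h2 : OutE P k A m₁ m₂ = ∅ := by
        unfold OutE
        rw [Finset.filter_eq_empty_iff]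
        rintro e he ⟨_, h1, h2⟩
        exact hno e he h1 h2
      have := (hst m₂ hm le_rfl).eq hL' (by rw [hc, hc'])
      subst this
      rw [h1, h2]
    · -- the first swap
      obtain ⟨⟨a, b⟩, hab, hmin⟩ := X.exists_min_image (fun e => sl e.1 e.2) hE
      have hab' := (memX a b).1 hab
      obtain ⟨ha, hb, hbL, hx, hs1, hs2⟩ := hab'
      set s := sl a b with hs
      have hne : a ≠ b := fun h => hbL (h ▸ ha)
      have heq : ht s a = ht s b := (ht_eq_iff hx s).2 rfl
      -- members are still below the others
      have hle : ∀ a' ∈ L, ∀ b' ∈ P, b' ∉ L → ht s a' ≤ ht s b' := by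
        intro a' ha' b' hb' hbL'
        have hne' : a' ≠ b' := fun h => hbL' (h ▸ ha')
        have h1 := hL.2 a' ha' b' hb' hbL'
        rcases lt_trichotomy a'.1 b'.1 with hx' | hx' | hx'
        · by_contra hlt
          have h3 : sl a' b' < s := (lt_ht_iff hx' s).1 (not_le.1 hlt)
          have h2 : m₁ < sl a' b' := by
            rcases h1 with h1 | ⟨_, h1⟩
            · exact (ht_lt_iff hx' m₁).1 h1
            · exact absurd h1 (not_lt.2 hx'.le)
          have : (a', b') ∈ X := (memX a' b').2 ⟨ha', hb', hbL', hx', h2, h3.trans hs2⟩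
          have := hmin _ this
          simp only at this
          linarith
        · exact absurd (hP.xinj a' (hL.1 ha') b' hb' hx') hne'
        · have h2 : sl b' a' ≤ m₁ := by
            rcases h1 with h1 | ⟨h1, _⟩
            · exact ((lt_ht_iff hx' m₁).1 h1).le
            · exact ((ht_eq_iff hx' m₁).1 h1.symm).ge
          exact ((lt_ht_iff hx' s).2 (lt_of_le_of_lt h2 hs1)).le
      -- strictly
      have hA : ∀ a' ∈ L, a' ≠ a → ht s a' < ht s a := by
        intro a' ha' hne'
        refine lt_of_le_of_ne (heq ▸ hle a' ha' b hb hbL) fun h => ?_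
        have hb' : a' ≠ b := fun h => hbL (h ▸ ha')
        exact hP.gen s a (hL.1 ha) b hb a' (hL.1 ha') hne (Ne.symm hne') (Ne.symm hb') heq h.symm
      have hB : ∀ b' ∈ P, b' ∉ L → b' ≠ b → ht s a < ht s b' := by
        intro b' hb' hbL' hne'
        refine lt_of_le_of_ne (hle a ha b' hb' hbL') fun h => ?_
        have ha' : b' ≠ a := fun h => hbL' (h ▸ ha)
        exact hP.gen s a (hL.1 ha) b hb b' hb' hne (Ne.symm ha') (Ne.symm hne') heq h
      -- `(a, b)` is a `k`-edge
      have hfil : ({v ∈ P | ht s v < ht s a} : Finset Pt) = L.erase a := by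
        ext v
        simp only [Finset.mem_filter, Finset.mem_erase]
        constructor
        · rintro ⟨hv, hlt⟩
          refine ⟨fun h => by rw [h] at hlt; exact lt_irrefl _ hlt, ?_⟩
          by_contra hvL
          by_cases hvb : v = b
          · rw [hvb, ← heq] at hlt; exact lt_irrefl _ hlt
          · exact lt_asymm hlt (hB v hv hvL hvb)
        · rintro ⟨hva, hvL⟩
          exact ⟨hL.1 hvL, hA v hvL hva⟩
      have hk : #(L.erase a) = k := by rw [Finset.card_erase_of_mem ha, hc]; rfl
      have hEd : (a, b) ∈ Ed P k := by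
        unfold Ed
        simp only [Finset.mem_filter, Finset.mem_product]
        refine ⟨⟨hL.1 ha, hb⟩, hx, ?_⟩
        rw [← hs, hfil, hk]
      -- the new set
      set L1 := insert b (L.erase a) with hL1
      have hbe : b ∉ L.erase a := fun h => hbL (Finset.mem_of_mem_erase h)
      have hc1 : #L1 = k + 1 := by rw [hL1, Finset.card_insert_of_notMem hbe, hk]
      have hLow1 : LowA P s L1 := by
        refine ⟨?_, ?_⟩
        · intro v hv
          rcases Finset.mem_insert.1 hv with rfl | hv
          · exact hb
          · exact hL.1 (Finset.mem_of_mem_erase hv)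
        · intro a' ha' b' hb' hbL'
          have hb1 : b' ≠ b := fun h => hbL' (h ▸ Finset.mem_insert_self _ _)
          have hb2 : b' = a ∨ b' ∉ L := by
            by_cases h : b' = a
            · exact Or.inl h
            · right
              intro h'
              exact hbL' (Finset.mem_insert_of_mem (Finset.mem_erase.2 ⟨h, h'⟩))
          have hbh : ht s a ≤ ht s b' := by
            rcases hb2 with h | h
            · rw [h]
            · exact (hB b' hb' h hb1).le
          rcases Finset.mem_insert.1 ha' with h | h
          · -- `a' = b`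
            subst h
            rcases hb2 with h | h
            · right; rw [h]; exact ⟨heq.symm, hx⟩
            · left; rw [← heq]; exact hB b' hb' h hb1
          · left
            have h' := Finset.mem_erase.1 h
            exact lt_of_lt_of_le (hA a' h'.2 h'.1) hbh
      -- the only edge in `(m₁, s]` is `(a, b)`
      have honly : ∀ e ∈ Ed P k, m₁ < sl e.1 e.2 → sl e.1 e.2 ≤ s → e = (a, b) := by
        rintro ⟨p, q⟩ he h1 h2
        simp only at h1 h2
        have hst : LowB P (sl p q) L := by
          refine stay hP hL h1 fun a' ha' b' hb' hbL' hx' h3 => ?_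
          by_contra h4
          have h5 := (not_le.1 h4).trans_le h2
          have : (a', b') ∈ X := (memX a' b').2 ⟨ha', hb', hbL', hx', h3, h5.trans hs2⟩
          have := hmin _ this
          simp only at this
          linarith
        obtain ⟨h3, h4⟩ := edge_of_stay hP hst hc he
        obtain ⟨_, hq, hxe, _⟩ := mem_Ed.1 he
        have h5 : (p, q) ∈ X := (memX p q).2 ⟨h3, hq, h4, hxe, h1, lt_of_le_of_lt h2 hs2⟩
        have h6 := hmin _ h5
        simp only at h6
        have h7 : sl p q = s := le_antisymm h2 h6
        have h8 : ht s p = ht s q := by rw [← h7]; exact (ht_eq_iff hxe _).2 rfl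
        have hpa : p = a := by
          by_contra hne'
          have h9 := hA p h3 hne'
          have h10 := hle a ha q hq h4
          rw [← h8] at h10
          exact absurd h9 (not_lt.2 h10)
        have hqb : q = b := by
          by_contra hne'
          have h9 := hB q hq h4 hne'
          rw [← h8, hpa] at h9
          exact lt_irrefl _ h9
        rw [hpa, hqb]
      have hcard : #{e ∈ Ed P k | s < sl e.1 e.2 ∧ sl e.1 e.2 < m₂} < n := by
        have : #{e ∈ Ed P k | s < sl e.1 e.2 ∧ sl e.1 e.2 < m₂} <
            #{e ∈ Ed P k | m₁ < sl e.1 e.2 ∧ sl e.1 e.2 < m₂} := by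
          apply Finset.card_lt_card
          rw [Finset.ssubset_iff_of_subset]
          · refine ⟨(a, b), ?_, ?_⟩
            · simp only [Finset.mem_filter]
              exact ⟨hEd, hs1, hs2⟩
            · simp only [Finset.mem_filter, not_and]
              intro _ h
              exact absurd h (lt_irrefl _)
          · intro e he
            simp only [Finset.mem_filter] at he ⊢
            exact ⟨he.1, hs1.trans he.2.1, he.2.2⟩
        omega
      have key := ih s L1 hcard hs2 hLow1 hc1
      -- split the edges
      have hIn : #(InE P k A m₁ m₂) = #(InE P k A s m₂) + (if a ∉ A ∧ b ∈ A then 1 else 0) := by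
        split_ifs with h
        · have : InE P k A m₁ m₂ = insert (a, b) (InE P k A s m₂) := by
            ext e
            simp only [InE, Finset.mem_insert, Finset.mem_filter]
            constructor
            · rintro ⟨h1, h2, h3, h4⟩
              by_cases h5 : sl e.1 e.2 ≤ s
              · left; exact honly e h1 h3 h5
              · right; exact ⟨h1, h2, not_le.1 h5, h4⟩
            · rintro (rfl | ⟨h1, h2, h3, h4⟩)
              · exact ⟨hEd, h, hs1, hs2⟩
              · exact ⟨h1, h2, hs1.trans h3, h4⟩
          rw [this, Finset.card_insert_of_notMem]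
          simp only [InE, Finset.mem_filter, not_and]
          intro _ _ h5
          exact absurd h5 (lt_irrefl _)
        · congr 1
          ext e
          simp only [InE, Finset.mem_filter]
          constructor
          · rintro ⟨h1, h2, h3, h4⟩
            refine ⟨h1, h2, ?_, h4⟩
            by_contra h5
            have := honly e h1 h3 (not_lt.1 h5)
            rw [this] at h2
            exact h h2
          · rintro ⟨h1, h2, h3, h4⟩
            exact ⟨h1, h2, hs1.trans h3, h4⟩
      have hOut : #(OutE P k A m₁ m₂) = #(OutE P k A s m₂) + (if a ∈ A ∧ b ∉ A then 1 else 0) := by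
        split_ifs with h
        · have : OutE P k A m₁ m₂ = insert (a, b) (OutE P k A s m₂) := by
            ext e
            simp only [OutE, Finset.mem_insert, Finset.mem_filter]
            constructor
            · rintro ⟨h1, h2, h3, h4⟩
              by_cases h5 : sl e.1 e.2 ≤ s
              · left; exact honly e h1 h3 h5
              · right; exact ⟨h1, h2, not_le.1 h5, h4⟩
            · rintro (rfl | ⟨h1, h2, h3, h4⟩)
              · exact ⟨hEd, h, hs1, hs2⟩
              · exact ⟨h1, h2, hs1.trans h3, h4⟩
          rw [this, Finset.card_insert_of_notMem]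
          simp only [OutE, Finset.mem_filter, not_and]
          intro _ _ h5
          exact absurd h5 (lt_irrefl _)
        · congr 1
          ext e
          simp only [OutE, Finset.mem_filter]
          constructor
          · rintro ⟨h1, h2, h3, h4⟩
            refine ⟨h1, h2, ?_, h4⟩
            by_contra h5
            have := honly e h1 h3 (not_lt.1 h5)
            rw [this] at h2
            exact h h2
          · rintro ⟨h1, h2, h3, h4⟩
            exact ⟨h1, h2, hs1.trans h3, h4⟩
      have e1 : #(L ∩ A) = #(L.erase a ∩ A) + (if a ∈ A then 1 else 0) := by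
        conv_lhs => rw [← Finset.insert_erase ha]
        split_ifs with h
        · rw [Finset.insert_inter_of_mem h, Finset.card_insert_of_notMem]
          intro h'
          exact (Finset.notMem_erase a L) (Finset.mem_inter.1 h').1
        · rw [Finset.insert_inter_of_notMem h]; rfl
      have e2 : #(L1 ∩ A) = #(L.erase a ∩ A) + (if b ∈ A then 1 else 0) := by
        rw [hL1]
        split_ifs with h
        · rw [Finset.insert_inter_of_mem h, Finset.card_insert_of_notMem]
          intro h'
          exact hbe (Finset.mem_inter.1 h').1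
        · rw [Finset.insert_inter_of_notMem h]; rfl
      rw [e2] at key
      rw [e1, hIn, hOut]
      by_cases h1 : a ∈ A <;> by_cases h2 : b ∈ A <;> simp [h1, h2] at key ⊢ <;> omega

end Vale.Agent.P065.UB.H102
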