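import Vale.Agent.P065.H537.PreDefs
import Vale.Agent.P065.UB.Mach.Defs
import Vale.Agent.P065.UB.H616.StarF

/-!
# P065, upper bound, line U, MACH3 (helper102): `Mach` + `MDim` give helper537's `PreC` + `Dim`

Everything is divided by `D = δ + ∑ (|X| + |Y|)` (sum over the used points), no translation.
-/

set_option autoImplicit false

namespace Vale.Agent.P065.UB.H102M

open Finset Vale.Agent.P065.UB Vale.Agent.P065.H183 Vale.Agent.P065.UB.H415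
open Vale.Agent.P065.UB.MC Vale.Agent.P065.UB.H616

/-! ### floors -/

theorem floor_near {a b : ℝ} (h : |a - b| ≤ 1) :
    ⌊a⌋ = ⌊b⌋ - 1 ∨ ⌊a⌋ = ⌊b⌋ ∨ ⌊a⌋ = ⌊b⌋ + 1 := by
  obtain ⟨h1, h2⟩ := abs_le.1 h
  have e1 : ⌊a⌋ ≤ ⌊b⌋ + 1 := by
    rw [← Int.floor_add_one]
    exact Int.floor_le_floor (by linarith)
  have e2 : ⌊b⌋ ≤ ⌊a⌋ + 1 := by
    rw [← Int.floor_add_one]
    exact Int.floor_le_floor (by linarith)
  omega

/-- few floors of a function that is almost constant on the classes of `g` -/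
theorem card_floor {α : Type*} [DecidableEq α] (S : Finset α) (f : α → ℝ) (g : α → ℕ)
    (V : Finset ℕ) (hg : ∀ q ∈ S, g q ∈ V) {δ : ℝ} (hδ : 0 < δ)
    (h : ∀ q ∈ S, ∀ q' ∈ S, g q = g q' → |f q - f q'| ≤ δ) :
    #(S.image fun q => ⌊f q / δ⌋) ≤ 3 * #V := by
  classical
  set b : ℕ → ℤ := fun v => if h : ∃ q ∈ S, g q = v then ⌊f h.choose / δ⌋ else 0 with hb
  have hsub : (S.image fun q => ⌊f q / δ⌋) ⊆
      V.biUnion fun v => ({b v - 1, b v, b v + 1} : Finset ℤ) := by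
    intro z hz
    obtain ⟨q, hq, rfl⟩ := Finset.mem_image.1 hz
    rw [Finset.mem_biUnion]
    refine ⟨g q, hg q hq, ?_⟩
    have hex : ∃ q' ∈ S, g q' = g q := ⟨q, hq, rfl⟩
    have e : b (g q) = ⌊f hex.choose / δ⌋ := by
      rw [hb]
      simp only [dif_pos hex]
    have h1 := h q hq _ hex.choose_spec.1 hex.choose_spec.2.symm
    have h2 : |f q / δ - f hex.choose / δ| ≤ 1 := by
      rw [← sub_div, abs_div, abs_of_pos hδ, div_le_one hδ]
      exact h1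
    rcases floor_near h2 with h3 | h3 | h3
    · rw [h3, e]; simp
    · rw [h3, e]; simp
    · rw [h3, e]; simp
  calc #(S.image fun q => ⌊f q / δ⌋) ≤ _ := Finset.card_le_card hsub
    _ ≤ ∑ v ∈ V, #({b v - 1, b v, b v + 1} : Finset ℤ) := Finset.card_biUnion_le
    _ ≤ ∑ _v ∈ V, 3 := Finset.sum_le_sum fun v _ => Finset.card_le_three
    _ = 3 * #V := by rw [Finset.sum_const, smul_eq_mul, mul_comm]

/-! ### the map -/

/-- the two coordinates divided by `D` -/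
noncomputable def phi (m0 : ℝ) (c o1 o2 o3 : Pt) (D : ℝ) (q : Pt) : ℝ × ℝ :=
  (fX m0 c o1 q / D, fY m0 c o1 o2 o3 q / D)

/-- the image of a set of points on one side -/
noncomputable def PQ (σ m0 : ℝ) (c o1 o2 o3 : Pt) (D : ℝ) (M : Finset Pt) : Finset (ℝ × ℝ) :=
  PP M σ m0 c (1 / D) (-(chU c o1) / D) 0 (cc o1 o2 o3 / D) (-(cc o1 o2 o3 * chU c o2) / D) 0

theorem phi_eq (m0 : ℝ) (c o1 o2 o3 : Pt) (D : ℝ) (q : Pt) :
    (chF m0 c (1 / D) (-(chU c o1) / D) 0 q,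
      chF m0 c (cc o1 o2 o3 / D) (-(cc o1 o2 o3 * chU c o2) / D) 0 q) =
      phi m0 c o1 o2 o3 D q := by
  unfold phi chF fX fY cf
  refine Prod.ext ?_ ?_
  · simp only
    ring
  · simp only
    ring

theorem mem_PQ {σ m0 : ℝ} {c o1 o2 o3 : Pt} {D : ℝ} {M : Finset Pt} {q : Pt} (hq : q ∈ M)
    (hσ : 0 < σ * chV m0 c q) : phi m0 c o1 o2 o3 D q ∈ PQ σ m0 c o1 o2 o3 D M := by
  unfold PQ PP
  rw [← phi_eq]
  exact Finset.mem_image.2 ⟨q, Finset.mem_filter.2 ⟨hq, hσ⟩, rfl⟩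

theorem card_PQ (σ m0 : ℝ) (c o1 o2 o3 : Pt) (D : ℝ) (M : Finset Pt) :
    #(PQ σ m0 c o1 o2 o3 D M) ≤ #M := by
  unfold PQ PP
  exact Finset.card_image_le.trans (Finset.card_filter_le _ _)

theorem det_ne {c o1 o2 o3 : Pt} {D : ℝ} (hD : 0 < D) (h12 : o1.1 ≠ o2.1) (h13 : o1.1 ≠ o3.1)
    (h23 : o2.1 ≠ o3.1) :
    (1 / D) * (-(cc o1 o2 o3 * chU c o2) / D) - (cc o1 o2 o3 / D) * (-(chU c o1) / D) ≠ 0 := by
  have e : (1 / D) * (-(cc o1 o2 o3 * chU c o2) / D) - (cc o1 o2 o3 / D) * (-(chU c o1) / D) =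
      cc o1 o2 o3 * (o1.1 - o2.1) / (D * D) := by
    unfold chU
    field_simp
    ring
  rw [e]
  have h1 : cc o1 o2 o3 ≠ 0 := by
    unfold cc
    exact div_ne_zero (sub_ne_zero.2 (Ne.symm h13)) (sub_ne_zero.2 h23)
  exact div_ne_zero (mul_ne_zero h1 (sub_ne_zero.2 h12)) (mul_ne_zero hD.ne' hD.ne')

theorem phi_inj {m0 : ℝ} {c o1 o2 o3 : Pt} {D : ℝ} (hD : 0 < D) (h12 : o1.1 ≠ o2.1)
    (h13 : o1.1 ≠ o3.1) (h23 : o2.1 ≠ o3.1) {v w : Pt} (hv : chV m0 c v ≠ 0)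
    (hw : chV m0 c w ≠ 0) (h : phi m0 c o1 o2 o3 D v = phi m0 c o1 o2 o3 D w) : v = w := by
  rw [← phi_eq, ← phi_eq] at h
  exact chF_inj (det_ne (c := c) hD h12 h13 h23) hv hw (congrArg Prod.fst h)
    (congrArg Prod.snd h)

theorem mu_inj {o1 o2 o3 a b : Pt} (h12 : o1.1 ≠ o2.1) (h13 : o1.1 ≠ o3.1) (h23 : o2.1 ≠ o3.1)
    (ha : a.1 ≠ o2.1) (hb : b.1 ≠ o2.1) (h : mu o1 o2 o3 a = mu o1 o2 o3 b) : a.1 = b.1 := by
  have h1 : cc o1 o2 o3 ≠ 0 := by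
    unfold cc
    exact div_ne_zero (sub_ne_zero.2 (Ne.symm h13)) (sub_ne_zero.2 h23)
  unfold mu at h
  have h2 : cc o1 o2 a = cc o1 o2 b := (div_left_inj' h1).1 h
  unfold cc at h2
  rw [div_eq_div_iff (sub_ne_zero.2 (Ne.symm ha)) (sub_ne_zero.2 (Ne.symm hb))] at h2
  have h3 : (a.1 - b.1) * (o2.1 - o1.1) = 0 := by linear_combination h2
  rcases mul_eq_zero.1 h3 with h4 | h4
  · exact sub_eq_zero.1 h4
  · exact absurd (sub_eq_zero.1 h4).symm h12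

theorem scale {D x s t : ℝ} (hD : 0 < D) : |x / D - s| ≤ t / D ↔ |x - s * D| ≤ t := by
  have e : x / D - s = (x - s * D) / D := by field_simp
  rw [e, abs_div, abs_of_pos hD, div_le_div_iff_of_pos_right hD]

theorem scale2 {D x s t : ℝ} (hD : 0 < D) : |x / D - s| ≤ t ↔ |x - s * D| ≤ t * D := by
  have e : x / D - s = (x - s * D) / D := by field_simp
  rw [e, abs_div, abs_of_pos hD, div_le_iff₀ hD]

section

variable {K K' lam : ℝ} {Q : Finset Pt} {W : Finset ℕ} {I : ℕ → Set ℝ} {R : ℕ → Finset Pt}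
  {c : Pt} {w0 : ℕ} {m0 : ℝ} {o1 o2 o3 : Pt} {F : Finset (Pt × Pt)} {Wd : Pt × Pt → ℕ} {δ : ℝ}

open Classical in
/-- the window of a pair of the image -/
noncomputable def omD (m0 : ℝ) (c o1 o2 o3 : Pt) (D : ℝ) (F : Finset (Pt × Pt))
    (Wd : Pt × Pt → ℕ) (al : ℝ) (p : ℝ × ℝ) : ℕ :=
  if h : ∃ e ∈ F, mu o1 o2 o3 e.1 = al ∧ phi m0 c o1 o2 o3 D e.2 = p then Wd h.choose else 0

open Classical in
/-- the position of a window in a class -/
noncomputable def zcD (m0 : ℝ) (c o1 o2 o3 : Pt) (D : ℝ) (F : Finset (Pt × Pt))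
    (Wd : Pt × Pt → ℕ) (al : ℝ) (w : ℕ) : ℝ :=
  if h : ∃ e ∈ F, mu o1 o2 o3 e.1 = al ∧ Wd e = w then
    (fX m0 c o1 h.choose.2 + al * fY m0 c o1 o2 o3 h.choose.2) / D else 0

theorem apex_inj (hV : JView K' lam Q W I R) (h : Mach0 K lam Q W I R c w0 m0 o1 o2 o3 F Wd δ)
    {e e' : Pt × Pt} (he : e ∈ F) (he' : e' ∈ F)
    (hm : mu o1 o2 o3 e.1 = mu o1 o2 o3 e'.1) : e.1 = e'.1 :=
  hV.xinj _ (h.fl e he).aQ _ (h.fl e' he').aQ
    (mu_inj (h.x12 hV he) (h.x13 hV he) (h.x23 hV he) (h.xa2 hV he) (h.xa2 hV he') hm)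

theorem pt_inj (hV : JView K' lam Q W I R) (h : Mach0 K lam Q W I R c w0 m0 o1 o2 o3 F Wd δ)
    {D : ℝ} (hD : 0 < D) {e e' : Pt × Pt} (he : e ∈ F) (he' : e' ∈ F)
    (hm : phi m0 c o1 o2 o3 D e.2 = phi m0 c o1 o2 o3 D e'.2) : e.2 = e'.2 :=
  phi_inj hD (h.x12 hV he) (h.x13 hV he) (h.x23 hV he) (h.V_ne he) (h.V_ne he') hm

theorem omD_eq (hV : JView K' lam Q W I R) (h : Mach0 K lam Q W I R c w0 m0 o1 o2 o3 F Wd δ)
    {D : ℝ} (hD : 0 < D) {e : Pt × Pt} (he : e ∈ F) :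
    omD m0 c o1 o2 o3 D F Wd (mu o1 o2 o3 e.1) (phi m0 c o1 o2 o3 D e.2) = Wd e := by
  classical
  have hex : ∃ e' ∈ F, mu o1 o2 o3 e'.1 = mu o1 o2 o3 e.1 ∧
      phi m0 c o1 o2 o3 D e'.2 = phi m0 c o1 o2 o3 D e.2 := ⟨e, he, rfl, rfl⟩
  unfold omD
  rw [dif_pos hex]
  have h1 := hex.choose_spec
  congr 1
  exact Prod.ext (apex_inj hV h h1.1 he h1.2.1) (pt_inj hV h hD h1.1 he h1.2.2)

theorem himg {D : ℝ} {α : ℝ} {p : ℝ × ℝ}
    (hp : (α, p) ∈ (F.image fun e => (mu o1 o2 o3 e.1, phi m0 c o1 o2 o3 D e.2))) :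
    ∃ e ∈ F, mu o1 o2 o3 e.1 = α ∧ phi m0 c o1 o2 o3 D e.2 = p := by
  obtain ⟨e, he, h1⟩ := Finset.mem_image.1 hp
  exact ⟨e, he, congrArg Prod.fst h1, congrArg Prod.snd h1⟩

open Classical in
theorem f_touch (hV : JView K' lam Q W I R)
    (h : Mach0 K lam Q W I R c w0 m0 o1 o2 o3 F Wd δ) {D : ℝ} (hD0 : 0 < D) {L : ℝ}
    (hK'L : K' ≤ L) :
    ∀ a ∈ (F.image Prod.fst).image (mu o1 o2 o3),
      (#{w ∈ W | ∃ q ∈ (F.image Prod.snd).image (phi m0 c o1 o2 o3 D),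
        (a, q) ∈ (F.image fun e => (mu o1 o2 o3 e.1, phi m0 c o1 o2 o3 D e.2)) ∧
        omD m0 c o1 o2 o3 D F Wd a q = w} : ℝ) ≤ L * lam := by
  have hl1 := hV.one
  have hl0 : 0 < lam := by linarith
  intro α hα
  obtain ⟨a, ha, rfl⟩ := Finset.mem_image.1 hα
  obtain ⟨e0, he0, rfl⟩ := Finset.mem_image.1 ha
  have h1 : #{w ∈ W | ∃ q ∈ (F.image Prod.snd).image (phi m0 c o1 o2 o3 D),
      (mu o1 o2 o3 e0.1, q) ∈
        (F.image fun e => (mu o1 o2 o3 e.1, phi m0 c o1 o2 o3 D e.2)) ∧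
      omD m0 c o1 o2 o3 D F Wd (mu o1 o2 o3 e0.1) q = w} ≤ #{w ∈ W | e0.1 ∈ R w} := by
    apply Finset.card_le_card
    intro w hw
    rw [Finset.mem_filter] at hw ⊢
    obtain ⟨hw, p, _, h2, h3⟩ := hw
    obtain ⟨e, he, h4, h5⟩ := himg h2
    rw [← h4, ← h5, omD_eq hV h hD0 he] at h3
    refine ⟨hw, ?_⟩
    rw [← apex_inj hV h he he0 h4, ← h3]
    exact (h.fl e he).jq.1
  refine le_trans (Nat.cast_le.2 h1) ((hV.touch _ (h.fl e0 he0).aQ).trans ?_)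
  exact mul_le_mul_of_nonneg_right hK'L hl0.le

open Classical in
theorem f_flag (hV : JView K' lam Q W I R)
    (h : Mach0 K lam Q W I R c w0 m0 o1 o2 o3 F Wd δ) {D : ℝ} (hD0 : 0 < D) {L : ℝ}
    (hKL : K ≤ L) :
    ∀ q ∈ (F.image Prod.snd).image (phi m0 c o1 o2 o3 D), ∀ w ∈ W,
      (#{a ∈ (F.image Prod.fst).image (mu o1 o2 o3) |
        (a, q) ∈ (F.image fun e => (mu o1 o2 o3 e.1, phi m0 c o1 o2 o3 D e.2)) ∧
        omD m0 c o1 o2 o3 D F Wd a q = w} : ℝ) ≤ L * (#Q / lam ^ 2) := by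
  have hl1 := hV.one
  have hl0 : 0 < lam := by linarith
  intro p hp w _
  obtain ⟨q, hq, rfl⟩ := Finset.mem_image.1 hp
  obtain ⟨e0, he0, rfl⟩ := Finset.mem_image.1 hq
  have h1 : #{α ∈ (F.image Prod.fst).image (mu o1 o2 o3) |
      (α, phi m0 c o1 o2 o3 D e0.2) ∈
        (F.image fun e => (mu o1 o2 o3 e.1, phi m0 c o1 o2 o3 D e.2)) ∧
      omD m0 c o1 o2 o3 D F Wd α (phi m0 c o1 o2 o3 D e0.2) = w} ≤
      #{a ∈ F.image Prod.fst | (a, e0.2) ∈ F ∧ Wd (a, e0.2) = w} := by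
    refine le_trans (Finset.card_le_card (t := ({a ∈ F.image Prod.fst | (a, e0.2) ∈ F ∧
      Wd (a, e0.2) = w}).image (mu o1 o2 o3)) ?_) Finset.card_image_le
    intro α hα
    rw [Finset.mem_filter] at hα
    obtain ⟨_, h2, h3⟩ := hα
    obtain ⟨e, he, h4, h5⟩ := himg h2
    rw [← h4, ← h5, omD_eq hV h hD0 he] at h3
    have h6 := pt_inj hV h hD0 he he0 h5
    refine Finset.mem_image.2 ⟨e.1, Finset.mem_filter.2 ⟨Finset.mem_image_of_mem _ he, ?_, ?_⟩,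
      h4⟩
    · rw [← h6]; exact he
    · rw [← h6]; exact h3
  have h2 := h.flag e0.2 w
  have h3 : (#{a ∈ F.image Prod.fst | (a, e0.2) ∈ F ∧ Wd (a, e0.2) = w} : ℝ) ≤
      K * (#Q / lam ^ 2) := by
    rw [← mul_div_assoc, le_div_iff₀ (by positivity)]
    linarith
  refine le_trans (Nat.cast_le.2 h1) (h3.trans ?_)
  exact mul_le_mul_of_nonneg_right hKL (by positivity)

open Classical in
theorem f_cell (hV : JView K' lam Q W I R)
    (h : Mach0 K lam Q W I R c w0 m0 o1 o2 o3 F Wd δ) {D : ℝ} (hD0 : 0 < D) {L : ℝ}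
    (hKL : K ≤ L) (x y : ℝ) :
    (#{p ∈ (F.image Prod.snd).image (phi m0 c o1 o2 o3 D) |
        |p.1 - x| ≤ δ / D ∧ |p.2 - y| ≤ δ / D} : ℝ) ≤ L * (#Q / lam ^ 2) := by
  have hl1 := hV.one
  have hl0 : 0 < lam := by linarith
  have h1 : #{p ∈ (F.image Prod.snd).image (phi m0 c o1 o2 o3 D) |
      |p.1 - x| ≤ δ / D ∧ |p.2 - y| ≤ δ / D} ≤
      #{q ∈ F.image Prod.snd | |fX m0 c o1 q - x * D| ≤ δ ∧
        |fY m0 c o1 o2 o3 q - y * D| ≤ δ} := by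
    refine le_trans (Finset.card_le_card (t := ({q ∈ F.image Prod.snd |
      |fX m0 c o1 q - x * D| ≤ δ ∧ |fY m0 c o1 o2 o3 q - y * D| ≤ δ}).image
      (phi m0 c o1 o2 o3 D)) ?_) Finset.card_image_le
    intro p hp
    rw [Finset.mem_filter] at hp
    obtain ⟨hp, h2, h3⟩ := hp
    obtain ⟨q, hq, rfl⟩ := Finset.mem_image.1 hp
    exact Finset.mem_image.2 ⟨q, Finset.mem_filter.2 ⟨hq, (scale hD0).1 h2, (scale hD0).1 h3⟩,
      rfl⟩
  have h2 := h.cell (x * D) (y * D)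
  have h3 : (#{q ∈ F.image Prod.snd | |fX m0 c o1 q - x * D| ≤ δ ∧
        |fY m0 c o1 o2 o3 q - y * D| ≤ δ} : ℝ) ≤ K * (#Q / lam ^ 2) := by
    rw [← mul_div_assoc, le_div_iff₀ (by positivity)]
    linarith
  refine le_trans (Nat.cast_le.2 h1) (h3.trans ?_)
  exact mul_le_mul_of_nonneg_right hKL (by positivity)

open Classical in
theorem f_covX (h : Mach0 K lam Q W I R c w0 m0 o1 o2 o3 F Wd δ) {D : ℝ} (hD0 : 0 < D) :
    #(((F.image Prod.snd).image (phi m0 c o1 o2 o3 D)).image fun q => ⌊q.1 / (δ / D)⌋) ≤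
      3 * #{w ∈ W | o1 ∈ R w} := by
  rw [Finset.image_image]
  have e1 : ((F.image Prod.snd).image
      ((fun q : ℝ × ℝ => ⌊q.1 / (δ / D)⌋) ∘ (phi m0 c o1 o2 o3 D))) =
      (F.image Prod.snd).image fun q => ⌊fX m0 c o1 q / δ⌋ := by
    refine Finset.image_congr fun q _ => ?_
    simp only [Function.comp, phi]
    rw [div_div_div_cancel_right₀ hD0.ne']
  rw [e1]
  refine card_floor _ (fX m0 c o1) (fun q => Wd (o1, q)) _ ?_ h.pos ?_
  · intro q hq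
    obtain ⟨e, he, rfl⟩ := Finset.mem_image.1 hq
    exact Finset.mem_filter.2 ⟨(h.fl1 e he).wW, (h.fl1 e he).jq.1⟩
  · intro q hq q' hq' hg
    obtain ⟨e, he, rfl⟩ := Finset.mem_image.1 hq
    obtain ⟨e', he', rfl⟩ := Finset.mem_image.1 hq'
    exact h.wX e he e' he' hg

open Classical in
theorem f_covY (h : Mach0 K lam Q W I R c w0 m0 o1 o2 o3 F Wd δ) {D : ℝ} (hD0 : 0 < D) :
    #(((F.image Prod.snd).image (phi m0 c o1 o2 o3 D)).image fun q => ⌊q.2 / (δ / D)⌋) ≤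
      3 * #{w ∈ W | o2 ∈ R w} := by
  rw [Finset.image_image]
  have e1 : ((F.image Prod.snd).image
      ((fun q : ℝ × ℝ => ⌊q.2 / (δ / D)⌋) ∘ (phi m0 c o1 o2 o3 D))) =
      (F.image Prod.snd).image fun q => ⌊fY m0 c o1 o2 o3 q / δ⌋ := by
    refine Finset.image_congr fun q _ => ?_
    simp only [Function.comp, phi]
    rw [div_div_div_cancel_right₀ hD0.ne']
  rw [e1]
  refine card_floor _ (fY m0 c o1 o2 o3) (fun q => Wd (o2, q)) _ ?_ h.pos ?_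
  · intro q hq
    obtain ⟨e, he, rfl⟩ := Finset.mem_image.1 hq
    exact Finset.mem_filter.2 ⟨(h.fl2 e he).wW, (h.fl2 e he).jq.1⟩
  · intro q hq q' hq' hg
    obtain ⟨e, he, rfl⟩ := Finset.mem_image.1 hq
    obtain ⟨e', he', rfl⟩ := Finset.mem_image.1 hq'
    exact h.wY e he e' he' hg

open Classical in
theorem f_covX' (hV : JView K' lam Q W I R)
    (h : Mach0 K lam Q W I R c w0 m0 o1 o2 o3 F Wd δ) {D : ℝ} (hD0 : 0 < D) {L : ℝ}
    (hL : 3 * K' ≤ L) {e00 : Pt × Pt} (he00 : e00 ∈ F) :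
    (#(((F.image Prod.snd).image (phi m0 c o1 o2 o3 D)).image
      fun q => ⌊q.1 / (δ / D)⌋) : ℝ) ≤ L * lam := by
  have hl1 := hV.one
  have h2 := hV.touch _ (h.fl1 e00 he00).aQ
  have h3 : (#(((F.image Prod.snd).image (phi m0 c o1 o2 o3 D)).image
      fun q => ⌊q.1 / (δ / D)⌋) : ℝ) ≤ ((3 * #{w ∈ W | o1 ∈ R w} : ℕ) : ℝ) :=
    Nat.cast_le.2 (f_covX h hD0)
  refine h3.trans ?_
  push_cast
  calc 3 * (#{w ∈ W | o1 ∈ R w} : ℝ) ≤ 3 * (K' * lam) :=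
        mul_le_mul_of_nonneg_left h2 (by norm_num)
    _ = (3 * K') * lam := by ring
    _ ≤ L * lam := mul_le_mul_of_nonneg_right hL (by linarith)

open Classical in
theorem f_covY' (hV : JView K' lam Q W I R)
    (h : Mach0 K lam Q W I R c w0 m0 o1 o2 o3 F Wd δ) {D : ℝ} (hD0 : 0 < D) {L : ℝ}
    (hL : 3 * K' ≤ L) {e00 : Pt × Pt} (he00 : e00 ∈ F) :
    (#(((F.image Prod.snd).image (phi m0 c o1 o2 o3 D)).image
      fun q => ⌊q.2 / (δ / D)⌋) : ℝ) ≤ L * lam := by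
  have hl1 := hV.one
  have h2 := hV.touch _ (h.fl2 e00 he00).aQ
  have h3 : (#(((F.image Prod.snd).image (phi m0 c o1 o2 o3 D)).image
      fun q => ⌊q.2 / (δ / D)⌋) : ℝ) ≤ ((3 * #{w ∈ W | o2 ∈ R w} : ℕ) : ℝ) :=
    Nat.cast_le.2 (f_covY h hD0)
  refine h3.trans ?_
  push_cast
  calc 3 * (#{w ∈ W | o2 ∈ R w} : ℝ) ≤ 3 * (K' * lam) :=
        mul_le_mul_of_nonneg_left h2 (by norm_num)
    _ = (3 * K') * lam := by ring
    _ ≤ L * lam := mul_le_mul_of_nonneg_right hL (by linarith)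

theorem f_cE (hV : JView K' lam Q W I R)
    (h : Mach0 K lam Q W I R c w0 m0 o1 o2 o3 F Wd δ) {D : ℝ} (hD0 : 0 < D) {L : ℝ}
    (hKL : K ≤ L) :
    lam ^ 3 * (#Q / lam ^ 2) ^ 2 ≤
      L * #(F.image fun e => (mu o1 o2 o3 e.1, phi m0 c o1 o2 o3 D e.2)) := by
  have hl1 := hV.one
  have hl0 : 0 < lam := by linarith
  have hc : #(F.image fun e => (mu o1 o2 o3 e.1, phi m0 c o1 o2 o3 D e.2)) = #F := by
    apply Finset.card_image_of_injOn
    intro e he e' he' hee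
    exact Prod.ext (apex_inj hV h he he' (congrArg Prod.fst hee))
      (pt_inj hV h hD0 he he' (congrArg Prod.snd hee))
  rw [hc]
  have h1 : lam ^ 3 * (#Q / lam ^ 2) ^ 2 = (#Q : ℝ) ^ 2 / lam := by field_simp
  rw [h1, div_le_iff₀ hl0]
  calc (#Q : ℝ) ^ 2 ≤ K * lam * #F := h.card
    _ ≤ L * lam * #F := by gcongr
    _ = L * #F * lam := by ring

theorem f_cA (hV : JView K' lam Q W I R)
    (h : Mach0 K lam Q W I R c w0 m0 o1 o2 o3 F Wd δ) {L : ℝ} (hK'L : K' ≤ L) :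
    (#((F.image Prod.fst).image (mu o1 o2 o3)) : ℝ) ≤ L * (#Q / lam) := by
  have hl1 := hV.one
  have hl0 : 0 < lam := by linarith
  have h1 : #((F.image Prod.fst).image (mu o1 o2 o3)) ≤ #(R w0) := by
    refine Finset.card_image_le.trans (Finset.card_le_card ?_)
    intro a ha
    obtain ⟨e, he, rfl⟩ := Finset.mem_image.1 ha
    exact (h.fl e he).jc.2.1
  have h2 := hV.cardR w0 h.w0W
  have h3 : (#(R w0) : ℝ) ≤ K' * (#Q / lam) := by
    rw [← mul_div_assoc, le_div_iff₀ hl0]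
    linarith
  exact (Nat.cast_le.2 h1).trans (h3.trans (mul_le_mul_of_nonneg_right hK'L (by positivity)))

theorem f_cR (hV : JView K' lam Q W I R) {σ D : ℝ} {L : ℝ} (hK'L : K' ≤ L) :
    ∀ w ∈ W, (#(PQ σ m0 c o1 o2 o3 D (R w)) : ℝ) ≤ L * (#Q / lam) := by
  have hl1 := hV.one
  have hl0 : 0 < lam := by linarith
  intro w hw
  have h2 := hV.cardR w hw
  have h3 : (#(R w) : ℝ) ≤ K' * (#Q / lam) := by
    rw [← mul_div_assoc, le_div_iff₀ hl0]
    linarith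
  exact (Nat.cast_le.2 (card_PQ σ m0 c o1 o2 o3 D (R w))).trans
    (h3.trans (mul_le_mul_of_nonneg_right hK'L (by positivity)))

theorem f_near (hV : JView K' lam Q W I R)
    (h : Mach0 K lam Q W I R c w0 m0 o1 o2 o3 F Wd δ) {D : ℝ} (hD0 : 0 < D) :
    ∀ p ∈ (F.image fun e => (mu o1 o2 o3 e.1, phi m0 c o1 o2 o3 D e.2)),
      |p.2.1 + p.1 * p.2.2 -
        zcD m0 c o1 o2 o3 D F Wd p.1 (omD m0 c o1 o2 o3 D F Wd p.1 p.2)| ≤ δ / D := by
  intro p hp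
  obtain ⟨e, he, rfl⟩ := Finset.mem_image.1 hp
  simp only
  rw [omD_eq hV h hD0 he]
  have hex : ∃ e' ∈ F, mu o1 o2 o3 e'.1 = mu o1 o2 o3 e.1 ∧ Wd e' = Wd e := ⟨e, he, rfl, rfl⟩
  unfold zcD
  rw [dif_pos hex]
  obtain ⟨h1, h2, h3⟩ := hex.choose_spec
  set e' := hex.choose with he'
  have h4 := apex_inj hV h h1 he h2
  have h5 := h.wZ e he e' h1 h4.symm h3.symm
  rw [h.Z_eq hV he, h.Z_eq hV he] at h5
  unfold phi
  simp only
  have e5 : fX m0 c o1 e.2 / D + mu o1 o2 o3 e.1 * (fY m0 c o1 o2 o3 e.2 / D) -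
      (fX m0 c o1 e'.2 + mu o1 o2 o3 e.1 * fY m0 c o1 o2 o3 e'.2) / D =
      (fX m0 c o1 e.2 + mu o1 o2 o3 e.1 * fY m0 c o1 o2 o3 e.2 -
        (fX m0 c o1 e'.2 + mu o1 o2 o3 e.1 * fY m0 c o1 o2 o3 e'.2)) / D := by ring
  rw [e5, abs_div, abs_of_pos hD0]
  exact div_le_div_of_nonneg_right h5 hD0.le

theorem star_num {K' L lam S q z : ℝ} (hl : 0 < lam) (hL : 216 * K' ≤ L) (hq : 0 ≤ q)
    (h : lam * S ≤ 216 * K' * (q * z ^ 2 + lam * q ^ 2)) : S ≤ L * (q / lam * z ^ 2 + q ^ 2) := by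
  have h1 : 216 * K' * (q * z ^ 2 + lam * q ^ 2) ≤ L * (q * z ^ 2 + lam * q ^ 2) :=
    mul_le_mul_of_nonneg_right hL (by positivity)
  have h2 : lam * (L * (q / lam * z ^ 2 + q ^ 2)) = L * (q * z ^ 2 + lam * q ^ 2) := by
    field_simp
  refine le_of_mul_le_mul_left ?_ hl
  rw [h2]
  exact h.trans h1

open Classical in
theorem f_star (hV : JView K' lam Q W I R) {σ D : ℝ} (hσ : σ = 1 ∨ σ = -1)
    (hdet : 1 / D * (-(cc o1 o2 o3 * chU c o2) / D) - cc o1 o2 o3 / D * (-(chU c o1) / D) ≠ 0)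
    {L : ℝ} (hL : 216 * K' ≤ L) (al t r s₀ h₀ : ℝ) :
    ∑ w ∈ W, (#{q ∈ PQ σ m0 c o1 o2 o3 D (R w) | H537.Bx al t r s₀ h₀ q} : ℝ) ^ 3 ≤
      L * (#Q / lam * (#{q ∈ PQ σ m0 c o1 o2 o3 D Q | H537.Bx al t r s₀ h₀ q} : ℝ) ^ 2 +
        (#Q : ℝ) ^ 2) := by
  have hl1 := hV.one
  have hl0 : 0 < lam := by linarith
  have h1 := star_box (m0 := m0) (o := c) (γ := 0) (γ' := 0) hV hσ hdet al s₀ h₀ t r
  unfold PQ H537.Bx
  refine star_num hl0 hL (Nat.cast_nonneg _) ?_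
  convert h1

open Classical in
/-- **MACH3, the structure** -/
theorem preC_of (hV : JView K' lam Q W I R) (hKK : K' ≤ K)
    (h : Mach0 K lam Q W I R c w0 m0 o1 o2 o3 F Wd δ) (hN : lam ^ 6 ≤ #Q) :
    ∃ (D : ℝ) (σ : ℝ), 0 < D ∧
      H537.PreC (K ^ 9) lam (#Q / lam ^ 2) (δ / D) (PQ σ m0 c o1 o2 o3 D Q)
        ((F.image Prod.snd).image (phi m0 c o1 o2 o3 D))
        ((F.image Prod.fst).image (mu o1 o2 o3))
        (F.image fun e => (mu o1 o2 o3 e.1, phi m0 c o1 o2 o3 D e.2))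
        (omD m0 c o1 o2 o3 D F Wd) W (fun w => PQ σ m0 c o1 o2 o3 D (R w))
        (zcD m0 c o1 o2 o3 D F Wd) := by
  have hK'2 := hV.two
  have hK2 : 2 ≤ K := hK'2.trans hKK
  have hK1 : 1 ≤ K := by linarith
  have hK0 : 0 < K := by linarith
  have hl1 := hV.one
  have hl0 : 0 < lam := by linarith
  have hN1 : (1 : ℝ) ≤ #Q := le_trans (one_le_pow₀ hl1) hN
  have hN0 : (0 : ℝ) < #Q := by linarith
  have hKL : K ≤ K ^ 9 := by
    calc K = K ^ 1 := (pow_one K).symm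
      _ ≤ K ^ 9 := pow_le_pow_right₀ hK1 (by norm_num)
  have hK'L : K' ≤ K ^ 9 := hKK.trans hKL
  have h256 : 256 * K ≤ K ^ 9 := by
    have h1 : (256 : ℝ) ≤ K ^ 8 := by
      calc (256 : ℝ) = 2 ^ 8 := by norm_num
        _ ≤ K ^ 8 := pow_le_pow_left₀ (by norm_num) hK2 8
    calc 256 * K ≤ K ^ 8 * K := mul_le_mul_of_nonneg_right h1 hK0.le
      _ = K ^ 9 := by ring
  have h216 : 216 * K' ≤ K ^ 9 := by linarith
  have h3L : 3 * K' ≤ K ^ 9 := by linarith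
  have hL0 : 0 < K ^ 9 := by positivity
  have hm0 : (0 : ℝ) < #Q / lam ^ 2 := by positivity
  have hlm : lam * (#Q / lam ^ 2) = #Q / lam := by field_simp
  have hllm : lam ^ 2 * (#Q / lam ^ 2) = (#Q : ℝ) := by field_simp
  -- nonempty
  have hFne : F.Nonempty := by
    rw [Finset.nonempty_iff_ne_empty]
    intro h0
    have h1 := h.card
    rw [h0, Finset.card_empty, Nat.cast_zero, mul_zero] at h1
    have : (0 : ℝ) < (#Q : ℝ) ^ 2 := by positivity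
    linarith
  obtain ⟨e00, he00⟩ := hFne
  have h12 := h.x12 hV he00
  have h13 := h.x13 hV he00
  have h23 := h.x23 hV he00
  -- the side
  obtain ⟨σ, hσ, hside⟩ : ∃ σ : ℝ, (σ = 1 ∨ σ = -1) ∧ ∀ e ∈ F, 0 < σ * chV m0 c e.2 := by
    rcases h.above with h1 | h1
    · refine ⟨1, Or.inl rfl, fun e he => ?_⟩
      rw [one_mul]
      unfold chV
      exact sub_pos.2 (h1 e he)
    · refine ⟨-1, Or.inr rfl, fun e he => ?_⟩
      unfold chV
      have := h1 e he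
      linarith
  -- the scale
  set D : ℝ := δ + ∑ q ∈ F.image Prod.snd, (|fX m0 c o1 q| + |fY m0 c o1 o2 o3 q|) with hD
  have hsn : ∀ q ∈ F.image Prod.snd, |fX m0 c o1 q| + |fY m0 c o1 o2 o3 q| ≤
      ∑ q ∈ F.image Prod.snd, (|fX m0 c o1 q| + |fY m0 c o1 o2 o3 q|) := fun q hq =>
    Finset.single_le_sum (f := fun q => |fX m0 c o1 q| + |fY m0 c o1 o2 o3 q|)
      (fun q _ => by positivity) hq
  have hs0 : 0 ≤ ∑ q ∈ F.image Prod.snd, (|fX m0 c o1 q| + |fY m0 c o1 o2 o3 q|) :=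
    Finset.sum_nonneg fun q _ => by positivity
  have hδ := h.pos
  have hD0 : 0 < D := by rw [hD]; linarith
  have hδD : δ ≤ D := by rw [hD]; linarith
  have hXD : ∀ q ∈ F.image Prod.snd, |fX m0 c o1 q| ≤ D := fun q hq => by
    have h1 := hsn q hq
    have h2 := abs_nonneg (fY m0 c o1 o2 o3 q)
    rw [hD]
    linarith
  have hYD : ∀ q ∈ F.image Prod.snd, |fY m0 c o1 o2 o3 q| ≤ D := fun q hq => by
    have h1 := hsn q hq
    have h2 := abs_nonneg (fX m0 c o1 q)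
    rw [hD]
    linarith
  refine ⟨D, σ, hD0, ?_⟩
  have hdet := det_ne (c := c) hD0 h12 h13 h23
  refine
    { hK := hK2.trans hKL
      δ0 := by positivity
      δ1 := (div_le_one hD0).2 hδD
      n1 := hl1
      m0 := hm0
      nm := ?_
      subG := ?_
      box := ?_
      cQ := ?_
      memE := ?_
      cE := ?_
      cA := ?_
      absA := ?_
      omW := ?_
      omR := ?_
      cW := ?_
      cR := ?_
      touch := ?_
      flag := ?_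
      cell := ?_
      covX := ?_
      covY := ?_
      near := ?_
      star := ?_ }
  · -- nm
    rw [le_div_iff₀ (by positivity)]
    calc lam ^ 4 * lam ^ 2 = lam ^ 6 := by ring
      _ ≤ (#Q : ℝ) := hN
  · -- subG
    intro p hp
    obtain ⟨q, hq, rfl⟩ := Finset.mem_image.1 hp
    obtain ⟨e, he, rfl⟩ := Finset.mem_image.1 hq
    exact mem_PQ (h.fl e he).qQ (hside e he)
  · -- box
    intro p hp
    obtain ⟨q, hq, rfl⟩ := Finset.mem_image.1 hp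
    unfold phi
    simp only
    rw [abs_div, abs_div, abs_of_pos hD0, div_le_one hD0, div_le_one hD0]
    exact ⟨hXD q hq, hYD q hq⟩
  · -- cQ
    rw [mul_assoc, hllm]
    calc (#(PQ σ m0 c o1 o2 o3 D Q) : ℝ) ≤ #Q := by exact_mod_cast card_PQ σ m0 c o1 o2 o3 D Q
      _ ≤ K ^ 9 * #Q := le_mul_of_one_le_left hN0.le (hK1.trans hKL)
  · -- memE
    intro p hp
    obtain ⟨e, he, rfl⟩ := Finset.mem_image.1 hp
    exact ⟨Finset.mem_image_of_mem _ (Finset.mem_image_of_mem _ he),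
      Finset.mem_image_of_mem _ (Finset.mem_image_of_mem _ he)⟩
  · -- cE
    exact f_cE hV h hD0 hKL
  · -- cA
    rw [mul_assoc, hlm]
    exact f_cA hV h hK'L
  · -- absA
    intro α hα
    obtain ⟨a, ha, rfl⟩ := Finset.mem_image.1 hα
    obtain ⟨e, he, rfl⟩ := Finset.mem_image.1 ha
    obtain ⟨h1, h2⟩ := h.nice e he
    refine ⟨?_, h2.trans (hK2.trans hKL)⟩
    have : 2 * (1 / 2 : ℝ) ≤ K ^ 9 * |mu o1 o2 o3 e.1| :=
      mul_le_mul (hK2.trans hKL) h1 (by norm_num) hL0.le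
    linarith
  · -- omW
    intro p hp
    obtain ⟨e, he, rfl⟩ := Finset.mem_image.1 hp
    simp only
    rw [omD_eq hV h hD0 he]
    exact (h.fl e he).wW
  · -- omR
    intro p hp
    obtain ⟨e, he, rfl⟩ := Finset.mem_image.1 hp
    simp only
    rw [omD_eq hV h hD0 he]
    exact mem_PQ (h.fl e he).jq.2.1 (hside e he)
  · -- cW
    exact hV.cardW.trans (mul_le_mul_of_nonneg_right hK'L (by positivity))
  · -- cR
    rw [mul_assoc, hlm]
    exact f_cR hV hK'L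
  · -- touch
    convert f_touch hV h hD0 hK'L
  · -- flag
    convert f_flag hV h hD0 hKL
  · -- cell
    intro x y
    convert f_cell hV h hD0 hKL x y
  · -- covX
    convert f_covX' hV h hD0 h3L he00
  · -- covY
    convert f_covY' hV h hD0 h3L he00
  · -- near
    exact f_near hV h hD0
  · -- star
    intro al t r s₀ h₀ _ _ _
    rw [hlm, hllm]
    convert f_star hV hσ hdet h216 al t r s₀ h₀

/-- **MACH3**: a `Mach` with the dimension condition is contradictory -/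
theorem stMachKill_of (hP : H537.StPreKill) : StMachKill := by
  classical
  obtain ⟨e, hP⟩ := hP
  refine ⟨9 * e, fun q hq => ?_⟩
  obtain ⟨c₁, hP⟩ := hP q hq
  refine ⟨9 * c₁ + 6, ?_⟩
  intro K K' lam Q W I R hV hKK c w0 m0 o1 o2 o3 F Wd δ hM hDim hKlam hlamN
  have hK'2 := hV.two
  have hK2 : 2 ≤ K := hK'2.trans hKK
  have hK1 : 1 ≤ K := by linarith
  have hl1 := hV.one
  have hl0 : 0 < lam := by linarith
  have hN : lam ^ 6 ≤ #Q := le_trans (pow_le_pow_right₀ hl1 (by omega)) hlamN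
  have hllm : lam ^ 2 * (#Q / lam ^ 2) = (#Q : ℝ) := by field_simp
  obtain ⟨D, σ, hD0, hC⟩ := preC_of hV hKK hM.toMach0 hN
  refine hP _ _ _ _ _ _ _ _ _ _ _ _ _ hC ?_ ?_
  · intro x y r hr _
    have hrD : δ ≤ r * D := (div_le_iff₀ hD0).1 hr
    rw [hllm]
    rcases hDim (x * D) (y * D) (r * D) hrD with h1 | h1
    · left
      have hDq : 0 < D ^ q := by positivity
      rw [mul_pow] at h1
      rw [div_pow, ← mul_div_assoc, div_le_iff₀ hDq]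
      exact h1
    · right
      have h2 : #{p ∈ (F.image Prod.snd).image (phi m0 c o1 o2 o3 D) |
          |p.1 - x| ≤ 2 * r ∧ |p.2 - y| ≤ 2 * r} ≤
          #{p ∈ F.image Prod.snd | |fX m0 c o1 p - x * D| ≤ 2 * (r * D) ∧
            |fY m0 c o1 o2 o3 p - y * D| ≤ 2 * (r * D)} := by
        refine le_trans (Finset.card_le_card (t := ({p ∈ F.image Prod.snd |
          |fX m0 c o1 p - x * D| ≤ 2 * (r * D) ∧
            |fY m0 c o1 o2 o3 p - y * D| ≤ 2 * (r * D)}).image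
          (phi m0 c o1 o2 o3 D)) ?_) Finset.card_image_le
        intro p hp
        rw [Finset.mem_filter] at hp
        obtain ⟨hp, h2, h3⟩ := hp
        obtain ⟨z, hz, rfl⟩ := Finset.mem_image.1 hp
        have h4 := (scale2 hD0).1 h2
        have h5 := (scale2 hD0).1 h3
        rw [mul_assoc] at h4 h5
        exact Finset.mem_image.2 ⟨z, Finset.mem_filter.2 ⟨hz, h4, h5⟩, rfl⟩
      have h3 : (#{p ∈ (F.image Prod.snd).image (phi m0 c o1 o2 o3 D) |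
          |p.1 - x| ≤ 2 * r ∧ |p.2 - y| ≤ 2 * r} : ℝ) ≤
          #{p ∈ F.image Prod.snd | |fX m0 c o1 p - x * D| ≤ 2 * (r * D) ∧
            |fY m0 c o1 o2 o3 p - y * D| ≤ 2 * (r * D)} := by exact_mod_cast h2
      rw [← pow_mul]
      exact le_trans (mul_le_mul_of_nonneg_left h3 (by positivity)) h1
  · rw [← pow_mul]
    exact le_trans (pow_le_pow_right₀ hK1 (by omega)) hKlam

end

end Vale.Agent.P065.UB.H102M
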