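import Vale.Agent.P065.UB.H102.Flow

/-!
# P065, upper bound: the lemma on poor points (helper102)

A touched point `x ∈ T = Tch P k Q I` is *poor* if it has at most `s` partners in `T`
(points `p ∈ T` with slope of `px` in `I`). `poor`: the number of `k`-edges of `(Q, I)` with a poor
end is `O((V + s + 1) ^ (4/3))`, `V = #EdBd`: the flux of `k`-edges through a line through a poor
point is only `O(V + s)`.
-/

set_option autoImplicit false

namespace Vale.Agent.P065.UB.H102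

open Finset Vale.Agent.P065.UB Vale.Agent.P065.UB.RankAux

open Classical in
/-- the touched points with at most `s` partners -/
noncomputable def Poor (P : Finset Pt) (k : ℕ) (Q : Finset Pt) (I : Set ℝ) (s : ℕ) : Finset Pt :=
  {x ∈ Tch P k Q I | #(Par (Tch P k Q I) I x) ≤ s}

open Classical in
/-- **POOR**: few `k`-edges have a poor end -/
def StPoor : Prop :=
  ∃ C : ℝ, 0 < C ∧ ∀ (P : Finset Pt) (k : ℕ) (Q : Finset Pt) (I : Set ℝ), Good P → Q ⊆ P →
    I.OrdConnected → ∀ s : ℕ,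
    (#{e ∈ EdIn P k Q I | e.1 ∈ Poor P k Q I s ∨ e.2 ∈ Poor P k Q I s} : ℝ) ≤
      C * ((#(EdBd P k Q I) : ℝ) + s + 1) ^ (4 / 3 : ℝ)

theorem mem_Poor {P : Finset Pt} {k : ℕ} {Q : Finset Pt} {I : Set ℝ} {s : ℕ} {x : Pt} :
    x ∈ Poor P k Q I s ↔ x ∈ Tch P k Q I ∧ #(Par (Tch P k Q I) I x) ≤ s := by
  classical
  unfold Poor
  simp only [Finset.mem_filter]

/-- there is at most one `k`-edge of a given slope -/
theorem edge_unique {P : Finset Pt} (hP : Good P) {k : ℕ} {e e' : Pt × Pt} (he : e ∈ Ed P k)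
    (he' : e' ∈ Ed P k) (h : sl e.1 e.2 = sl e'.1 e'.2) : e = e' := by
  classical
  obtain ⟨p, q⟩ := e
  obtain ⟨p', q'⟩ := e'
  simp only at h
  have c1 := mem_Ed.1 he
  have c2 := mem_Ed.1 he'
  have hh : ht (sl p q) p = ht (sl p q) p' := by
    rcases lt_trichotomy (ht (sl p q) p) (ht (sl p q) p') with h3 | h3 | h3
    · exfalso
      have : #{v ∈ P | ht (sl p q) v < ht (sl p q) p} <
          #{v ∈ P | ht (sl p' q') v < ht (sl p' q') p'} := by
        rw [← h]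
        apply Finset.card_lt_card
        rw [Finset.ssubset_iff_of_subset]
        · exact ⟨p, Finset.mem_filter.2 ⟨c1.1, h3⟩, fun h4 => lt_irrefl _ (Finset.mem_filter.1 h4).2⟩
        · intro v hv
          rw [Finset.mem_filter] at hv ⊢
          exact ⟨hv.1, hv.2.trans h3⟩
      rw [c1.2.2.2, c2.2.2.2] at this
      exact lt_irrefl _ this
    · exact h3
    · exfalso
      have : #{v ∈ P | ht (sl p' q') v < ht (sl p' q') p'} <
          #{v ∈ P | ht (sl p q) v < ht (sl p q) p} := by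
        rw [← h]
        apply Finset.card_lt_card
        rw [Finset.ssubset_iff_of_subset]
        · exact ⟨p', Finset.mem_filter.2 ⟨c2.1, h3⟩, fun h4 => lt_irrefl _ (Finset.mem_filter.1 h4).2⟩
        · intro v hv
          rw [Finset.mem_filter] at hv ⊢
          exact ⟨hv.1, hv.2.trans h3⟩
      rw [c1.2.2.2, c2.2.2.2] at this
      exact lt_irrefl _ this
  have hx := c1.2.2.1
  have hx' := c2.2.2.1
  have hpq : p ≠ q := fun h => by rw [h] at hx; exact lt_irrefl _ hx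
  have e1 : ht (sl p q) p = ht (sl p q) q := (ht_eq_iff hx _).2 rfl
  have e2 : ht (sl p q) p' = ht (sl p q) q' := (ht_eq_iff hx' _).2 h
  have k1 : p' = p ∨ p' = q := by
    by_contra hcon
    push Not at hcon
    exact hP.gen (sl p q) p c1.1 q c1.2.1 p' c2.1 hpq (Ne.symm hcon.1) (Ne.symm hcon.2) e1 hh
  have k2 : q' = p ∨ q' = q := by
    by_contra hcon
    push Not at hcon
    exact hP.gen (sl p q) p c1.1 q c1.2.1 q' c2.2.1 hpq (Ne.symm hcon.1) (Ne.symm hcon.2) e1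
      (hh.trans e2)
  rcases k1 with k1 | k1 <;> rcases k2 with k2 | k2
  · rw [k1, k2] at hx'; exact absurd hx' (lt_irrefl _)
  · rw [k1, k2]
  · rw [k1, k2] at hx'; exact absurd hx' (lt_asymm hx)
  · rw [k1, k2] at hx'; exact absurd hx' (lt_irrefl _)

/-- the rank of a touched point at its own time -/
theorem own {P : Finset Pt} {k : ℕ} {Q : Finset Pt} {I : Set ℝ} {v : Pt} (hv : v ∈ Tch P k Q I) :
    ∃ e ∈ EdIn P k Q I, #(Bel (Tch P k Q I) (sl e.1 e.2) v) = cT (Tch P k Q I) e := by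
  classical
  obtain ⟨_, ⟨p, q⟩, he, hpq⟩ := mem_Tch.1 hv
  have h1 := mem_EdIn.1 he
  have hx := (mem_Ed.1 h1.1).2.2.1
  refine ⟨(p, q), he, ?_⟩
  have hh : ht (sl p q) v = ht (sl p q) p := by
    rcases hpq with h | h
    · simp only at h; rw [h]
    · simp only at h; rw [← h]; exact ((ht_eq_iff hx _).2 rfl).symm
  unfold Bel cT
  simp only
  rw [hh]

theorem sl_mem_of_EdIn {P : Finset Pt} {k : ℕ} {Q : Finset Pt} {I : Set ℝ} {e : Pt × Pt}
    (he : e ∈ EdIn P k Q I) : sl e.1 e.2 ∈ I := by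
  obtain ⟨p, q⟩ := e
  exact (mem_EdIn.1 he).2.2.2

/-- a poor point has its rank near the cursor during the whole window -/
theorem rank_poor {P : Finset Pt} (hP : Good P) {k : ℕ} {Q : Finset Pt} (hQ : Q ⊆ P) {I : Set ℝ}
    (hI : I.OrdConnected) {s : ℕ} {x : Pt} (hx : x ∈ Poor P k Q I s) {m : ℝ} (hm : m ∈ I)
    {e : Pt × Pt} (he : e ∈ EdIn P k Q I) :
    #(Bel (Tch P k Q I) m x) ≤ cT (Tch P k Q I) e + #(EdBd P k Q I) + s ∧
    cT (Tch P k Q I) e ≤ #(Bel (Tch P k Q I) m x) + s + #(EdBd P k Q I) := by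
  obtain ⟨hxT, hxs⟩ := mem_Poor.1 hx
  obtain ⟨f, hf, hfr⟩ := own hxT
  have hTP : Tch P k Q I ⊆ P := (Tch_subset P k Q I).trans hQ
  have s1 := shift hP hTP hI hm (sl_mem_of_EdIn hf) hxT
  have s2 := shift hP hTP hI (sl_mem_of_EdIn hf) hm hxT
  have w1 := window hP hQ hI he hf
  have w2 := window hP hQ hI hf he
  constructor <;> omega

open Classical in
/-- **the flux through a poor point** -/
theorem flux_poor {P : Finset Pt} (hP : Good P) {k : ℕ} {Q : Finset Pt} (hQ : Q ⊆ P) {I : Set ℝ}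
    (hI : I.OrdConnected) {s : ℕ} {x : Pt} (hx : x ∈ Poor P k Q I s) {t0 : ℝ} (ht0 : t0 ∈ I)
    (A : Finset Pt) (hAT : A ⊆ Tch P k Q I) (hA : ∀ u ∈ A, ht t0 x ≤ ht t0 u)
    (hmono : ∀ e ∈ EdIn P k Q I, e.1 ∈ A → e.2 ∈ A) :
    #{e ∈ EdIn P k Q I | e.1 ∉ A ∧ e.2 ∈ A} ≤ 2 * #(EdBd P k Q I) + 2 * s + 4 := by
  obtain ⟨hxT, hxs⟩ := mem_Poor.1 hx
  have hTP : Tch P k Q I ⊆ P := (Tch_subset P k Q I).trans hQ
  set T := Tch P k Q I with hT
  set V := #(EdBd P k Q I) with hV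
  set Cs : Finset (Pt × Pt) := {e ∈ EdIn P k Q I | e.1 ∉ A ∧ e.2 ∈ A} with hCs
  have memC : ∀ e, e ∈ Cs ↔ e ∈ EdIn P k Q I ∧ e.1 ∉ A ∧ e.2 ∈ A := by
    intro e; simp only [hCs, Finset.mem_filter]
  have hEd : ∀ e ∈ EdIn P k Q I, e ∈ Ed P k := by
    rintro ⟨p, q⟩ he; exact (mem_EdIn.1 he).1
  rcases Cs.eq_empty_or_nonempty with hE | hE
  · rw [hE]; simp
  obtain ⟨e1, he1, hmin⟩ := Cs.exists_min_image (fun e => sl e.1 e.2) hE
  obtain ⟨e2, he2, hmax⟩ := Cs.exists_max_image (fun e => sl e.1 e.2) hE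
  have g1 := ((memC e1).1 he1).1
  have g2 := ((memC e2).1 he2).1
  -- the crossing edges are `e1`, `e2` and entering edges strictly between
  have hsub : Cs ⊆ insert e1 (insert e2 (InE P k A (sl e1.1 e1.2) (sl e2.1 e2.2))) := by
    intro e he
    have he' := (memC e).1 he
    have h1 := hmin e he
    have h2 := hmax e he
    rcases h1.lt_or_eq with h1 | h1
    · rcases h2.lt_or_eq with h2 | h2
      · refine Finset.mem_insert_of_mem (Finset.mem_insert_of_mem ?_)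
        unfold InE
        exact Finset.mem_filter.2 ⟨hEd e he'.1, he'.2, h1, h2⟩
      · refine Finset.mem_insert_of_mem (Finset.mem_insert.2 (Or.inl ?_))
        exact edge_unique hP (hEd e he'.1) (hEd e2 g2) h2
    · exact Finset.mem_insert.2 (Or.inl (edge_unique hP (hEd e he'.1) (hEd e1 g1) h1.symm))
  have hcard : #Cs ≤ #(InE P k A (sl e1.1 e1.2) (sl e2.1 e2.2)) + 2 := by
    refine (Finset.card_le_card hsub).trans ?_
    refine (Finset.card_insert_le _ _).trans ?_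
    have := Finset.card_insert_le e2 (InE P k A (sl e1.1 e1.2) (sl e2.1 e2.2))
    omega
  rcases (hmin e2 he2).lt_or_eq with hlt | heq
  swap
  · -- only one crossing time
    have : InE P k A (sl e1.1 e1.2) (sl e2.1 e2.2) = ∅ := by
      unfold InE
      rw [Finset.filter_eq_empty_iff]
      rintro e _ ⟨_, h1, h2⟩
      rw [← heq] at h2
      exact lt_asymm h1 h2
    rw [this, Finset.card_empty] at hcard
    omega
  obtain ⟨p1, q1⟩ := e1
  obtain ⟨p2, q2⟩ := e2
  simp only at hlt hcard hsub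
  have G1 := mem_EdIn.1 g1
  have G2 := mem_EdIn.1 g2
  obtain ⟨a1, a2, a3, a4⟩ := low_of_edge hP G1.1
  obtain ⟨b1, b2, b3, b4⟩ := low_of_edge hP G2.1
  have key := flow hP A b2 b4 _ (sl p1 q1) _ (Nat.lt_succ_self _) hlt a1 a3
  set L' : Finset Pt := insert p2 ({v ∈ P | ht (sl p2 q2) v < ht (sl p2 q2) p2} : Finset Pt)
    with hL'
  set m := sl p2 q2 with hm
  have hmI : m ∈ I := G2.2.2.2
  -- leaving edges are boundary edges
  have hOut : #(OutE P k A (sl p1 q1) m) ≤ V := by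
    apply Finset.card_le_card
    rintro ⟨p, q⟩ he
    unfold OutE at he
    unfold EdBd
    simp only [Finset.mem_filter] at he ⊢
    obtain ⟨h1, ⟨h2, h3⟩, h4, h5⟩ := he
    have hsI : sl p q ∈ I := hI.out G1.2.2.2 hmI ⟨h4.le, h5.le⟩
    have hpQ : p ∈ Q := Tch_subset P k Q I (hAT h2)
    refine ⟨h1, Or.inl ⟨hpQ, fun hq => h3 ?_⟩, hsI⟩
    exact hmono (p, q) (mem_EdIn.2 ⟨h1, hpQ, hq, hsI⟩) h2
  -- the points of `A` among the lowest points at the time `m`
  have hp2 : p2 ∈ T := mem_Tch.2 ⟨G2.2.1, (p2, q2), g2, Or.inl rfl⟩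
  have hLT : #(L' ∩ T) = cT T (p2, q2) + 1 := insert_inter_cT hTP hp2 (lt_irrefl _)
  have hin : #(L' ∩ A) ≤ V + 2 * s + 2 := by
    set U : Finset Pt := {u ∈ L' ∩ A | ht m x < ht m u} with hU
    have hsub2 : L' ∩ A ⊆ insert x (Par T I x) ∪ U := by
      intro u hu
      obtain ⟨huL, huA⟩ := Finset.mem_inter.1 hu
      by_cases hux : u = x
      · exact Finset.mem_union_left _ (Finset.mem_insert.2 (Or.inl hux))
      by_cases hlt' : ht m x < ht m u
      · exact Finset.mem_union_right _ (Finset.mem_filter.2 ⟨hu, hlt'⟩)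
      refine Finset.mem_union_left _ (Finset.mem_insert_of_mem ?_)
      have h1 := hA u huA
      have huT := hAT huA
      unfold Par
      rw [Finset.mem_filter]
      refine ⟨huT, ?_⟩
      rcases lt_trichotomy u.1 x.1 with hxx | hxx | hxx
      · left
        have k1 : sl u x ≤ t0 := by
          by_contra h3
          exact absurd h1 (not_le.2 ((ht_lt_iff hxx t0).2 (not_le.1 h3)))
        have k2 : m ≤ sl u x := by
          by_contra h3
          exact hlt' ((lt_ht_iff hxx m).2 (not_le.1 h3))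
        exact mem_Sw.2 ⟨huT, hxT, hxx, hI.out hmI ht0 ⟨k2, k1⟩⟩
      · exact absurd (hP.xinj u (hTP huT) x (hTP hxT) hxx) hux
      · right
        have k1 : t0 ≤ sl x u := by
          by_contra h3
          exact absurd h1 (not_le.2 ((lt_ht_iff hxx t0).2 (not_le.1 h3)))
        have k2 : sl x u ≤ m := by
          by_contra h3
          exact hlt' ((ht_lt_iff hxx m).2 (not_le.1 h3))
        exact mem_Sw.2 ⟨hxT, huT, hxx, hI.out ht0 hmI ⟨k1, k2⟩⟩
    have hUc : #U ≤ s + V + 1 := by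
      rcases U.eq_empty_or_nonempty with hUe | ⟨u0, hu0⟩
      · rw [hUe]; simp
      have hu0' := Finset.mem_filter.1 hu0
      have hdis : Disjoint U (Bel T m x) := by
        rw [Finset.disjoint_left]
        intro u hu1 hu2
        exact lt_asymm (Finset.mem_filter.1 hu1).2 (mem_Bel.1 hu2).2
      have hsub3 : U ∪ Bel T m x ⊆ L' ∩ T := by
        intro u hu
        rcases Finset.mem_union.1 hu with h | h
        · have h' := Finset.mem_inter.1 (Finset.mem_filter.1 h).1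
          exact Finset.mem_inter.2 ⟨h'.1, hAT h'.2⟩
        · obtain ⟨huT, hul⟩ := mem_Bel.1 h
          refine Finset.mem_inter.2 ⟨?_, huT⟩
          by_contra huL
          have h5 := b2.2 u0 (Finset.mem_inter.1 hu0'.1).1 u (hTP huT) huL
          have h6 := hul.trans hu0'.2
          rcases h5 with h5 | ⟨h5, _⟩
          · exact lt_asymm h5 h6
          · rw [h5] at h6; exact lt_irrefl _ h6
      have h7 := Finset.card_le_card hsub3
      rw [Finset.card_union_of_disjoint hdis, hLT] at h7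
      have h8 := (rank_poor hP hQ hI hx hmI g2).2
      rw [← hT] at h8
      omega
    have h9 := Finset.card_le_card hsub2
    have h10 := Finset.card_union_le (insert x (Par T I x)) U
    have h11 := Finset.card_insert_le x (Par T I x)
    omega
  omega

open Classical in
/-- the number of poor points and the edges with a poor end -/
theorem poor_region {P : Finset Pt} (hP : Good P) {k : ℕ} {Q : Finset Pt} (hQ : Q ⊆ P)
    {I : Set ℝ} (hI : I.OrdConnected) {s : ℕ} :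
    ∃ Z : Finset Pt, Z ⊆ Tch P k Q I ∧ Poor P k Q I s ⊆ Z ∧
      #Z ≤ 2 * #(EdBd P k Q I) + 2 * s + 2 ∧
      #(EdBd P k Z I) ≤ 5 * #(EdBd P k Q I) + 4 * s + 8 := by
  rcases (Poor P k Q I s).eq_empty_or_nonempty with hE | hE
  · refine ⟨∅, Finset.empty_subset _, by rw [hE], by simp, ?_⟩
    have : EdBd P k ∅ I = ∅ := by
      unfold EdBd
      rw [Finset.filter_eq_empty_iff]
      rintro e _ ⟨h, _⟩
      simp at h
    rw [this]; simp
  have hTP : Tch P k Q I ⊆ P := (Tch_subset P k Q I).trans hQ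
  obtain ⟨x0, hx0⟩ := hE
  obtain ⟨f0, hf0, _⟩ := own (mem_Poor.1 hx0).1
  obtain ⟨e0, he0, hmin⟩ := (EdIn P k Q I).exists_min_image (fun e => sl e.1 e.2) ⟨f0, hf0⟩
  set t0 := sl e0.1 e0.2 with ht0
  have ht0I : t0 ∈ I := sl_mem_of_EdIn he0
  obtain ⟨x1, hx1, hx1m⟩ := (Poor P k Q I s).exists_min_image (fun x => ht t0 x) ⟨x0, hx0⟩
  obtain ⟨x2, hx2, hx2m⟩ := (Poor P k Q I s).exists_max_image (fun x => ht t0 x) ⟨x0, hx0⟩
  set T := Tch P k Q I with hT
  set V := #(EdBd P k Q I) with hV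
  set Z : Finset Pt := {u ∈ T | ht t0 x1 ≤ ht t0 u ∧ ht t0 u ≤ ht t0 x2} with hZ
  set A1 : Finset Pt := {u ∈ T | ht t0 x1 ≤ ht t0 u} with hA1
  set A2 : Finset Pt := {u ∈ T | ht t0 x2 < ht t0 u} with hA2
  -- inside edges go up
  have hup : ∀ e ∈ EdIn P k Q I, ht t0 e.1 ≤ ht t0 e.2 ∧ e.1 ∈ T ∧ e.2 ∈ T := by
    rintro ⟨p, q⟩ he
    have h1 := mem_EdIn.1 he
    have hx := (mem_Ed.1 h1.1).2.2.1
    refine ⟨?_, mem_Tch.2 ⟨h1.2.1, (p, q), he, Or.inl rfl⟩,
      mem_Tch.2 ⟨h1.2.2.1, (p, q), he, Or.inr rfl⟩⟩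
    by_contra h2
    exact absurd (hmin (p, q) he) (not_le.2 ((lt_ht_iff hx t0).1 (not_le.1 h2)))
  have f1 := flux_poor hP hQ hI hx1 ht0I A1 (Finset.filter_subset _ _)
    (fun u hu => (Finset.mem_filter.1 hu).2) (fun e he h1 => by
      obtain ⟨h2, _, h3⟩ := hup e he
      exact Finset.mem_filter.2 ⟨h3, (Finset.mem_filter.1 h1).2.trans h2⟩)
  have f2 := flux_poor hP hQ hI hx2 ht0I A2 (Finset.filter_subset _ _)
    (fun u hu => (Finset.mem_filter.1 hu).2.le) (fun e he h1 => by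
      obtain ⟨h2, _, h3⟩ := hup e he
      exact Finset.mem_filter.2 ⟨h3, (Finset.mem_filter.1 h1).2.trans_le h2⟩)
  refine ⟨Z, Finset.filter_subset _ _, ?_, ?_, ?_⟩
  · intro x hx
    exact Finset.mem_filter.2 ⟨(mem_Poor.1 hx).1, hx1m x hx, hx2m x hx⟩
  · -- the number of points
    have hdis : Disjoint Z (Bel T t0 x1) := by
      rw [Finset.disjoint_left]
      intro u hu1 hu2
      exact absurd (mem_Bel.1 hu2).2 (not_lt.2 (Finset.mem_filter.1 hu1).2.1)
    have hsub : Z ∪ Bel T t0 x1 ⊆ Bel T t0 x2 ∪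
        ({v ∈ T | #(Bel T t0 v) = #(Bel T t0 x2)} : Finset Pt) := by
      intro u hu
      rcases Finset.mem_union.1 hu with h | h
      · obtain ⟨h1, h2, h3⟩ := Finset.mem_filter.1 h
        rcases h3.lt_or_eq with h3 | h3
        · exact Finset.mem_union_left _ (mem_Bel.2 ⟨h1, h3⟩)
        · refine Finset.mem_union_right _ (Finset.mem_filter.2 ⟨h1, ?_⟩)
          unfold Bel
          rw [h3]
      · obtain ⟨h1, h2⟩ := mem_Bel.1 h
        exact Finset.mem_union_left _ (mem_Bel.2 ⟨h1, h2.trans_le (hx1m x2 hx2)⟩)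
    have h1 := Finset.card_le_card hsub
    rw [Finset.card_union_of_disjoint hdis] at h1
    have h2 := Finset.card_union_le (Bel T t0 x2)
      ({v ∈ T | #(Bel T t0 v) = #(Bel T t0 x2)} : Finset Pt)
    have h3 := card_rank_le hP hTP t0 #(Bel T t0 x2)
    have h4 := (rank_poor hP hQ hI hx2 ht0I he0).1
    have h5 := (rank_poor hP hQ hI hx1 ht0I he0).2
    rw [← hT] at h4 h5
    omega
  · -- the boundary
    have hsub : EdBd P k Z I ⊆ EdBd P k Q I ∪
        (({e ∈ EdIn P k Q I | e.1 ∉ A1 ∧ e.2 ∈ A1} : Finset (Pt × Pt)) ∪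
        ({e ∈ EdIn P k Q I | e.1 ∉ A2 ∧ e.2 ∈ A2} : Finset (Pt × Pt))) := by
      intro e he
      unfold EdBd at he
      obtain ⟨hE, hc, hs⟩ := Finset.mem_filter.1 he
      have hZQ : ∀ u ∈ Z, u ∈ Q := fun u hu => Tch_subset P k Q I (Finset.mem_filter.1 hu).1
      rcases hc with ⟨h1, h2⟩ | ⟨h1, h2⟩
      · by_cases hq : e.2 ∈ Q
        · have hin : e ∈ EdIn P k Q I := by
            obtain ⟨p, q⟩ := e
            exact mem_EdIn.2 ⟨hE, hZQ _ h1, hq, hs⟩
          obtain ⟨u1, u2, u3⟩ := hup e hin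
          have h1' := (Finset.mem_filter.1 h1).2
          refine Finset.mem_union_right _ (Finset.mem_union_right _ (Finset.mem_filter.2
            ⟨hin, fun h => ?_, Finset.mem_filter.2 ⟨u3, ?_⟩⟩))
          · exact absurd (Finset.mem_filter.1 h).2 (not_lt.2 h1'.2)
          · by_contra h3
            exact h2 (Finset.mem_filter.2 ⟨u3, h1'.1.trans u1, not_lt.1 h3⟩)
        · refine Finset.mem_union_left _ ?_
          unfold EdBd
          exact Finset.mem_filter.2 ⟨hE, Or.inl ⟨hZQ _ h1, hq⟩, hs⟩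
      · by_cases hq : e.1 ∈ Q
        · have hin : e ∈ EdIn P k Q I := by
            obtain ⟨p, q⟩ := e
            exact mem_EdIn.2 ⟨hE, hq, hZQ _ h2, hs⟩
          obtain ⟨u1, u2, u3⟩ := hup e hin
          have h2' := (Finset.mem_filter.1 h2).2
          refine Finset.mem_union_right _ (Finset.mem_union_left _ (Finset.mem_filter.2
            ⟨hin, fun h => ?_, Finset.mem_filter.2 ⟨u3, h2'.1⟩⟩))
          exact h1 (Finset.mem_filter.2 ⟨u2, (Finset.mem_filter.1 h).2, u1.trans h2'.2⟩)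
        · refine Finset.mem_union_left _ ?_
          unfold EdBd
          exact Finset.mem_filter.2 ⟨hE, Or.inr ⟨hq, hZQ _ h2⟩, hs⟩
    have h1 := Finset.card_le_card hsub
    have h2 := Finset.card_union_le (EdBd P k Q I)
      (({e ∈ EdIn P k Q I | e.1 ∉ A1 ∧ e.2 ∈ A1} : Finset (Pt × Pt)) ∪
        ({e ∈ EdIn P k Q I | e.1 ∉ A2 ∧ e.2 ∈ A2} : Finset (Pt × Pt)))
    have h3 := Finset.card_union_le ({e ∈ EdIn P k Q I | e.1 ∉ A1 ∧ e.2 ∈ A1} : Finset (Pt × Pt))
        ({e ∈ EdIn P k Q I | e.1 ∉ A2 ∧ e.2 ∈ A2} : Finset (Pt × Pt))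
    omega

/-- few points are poor -/
theorem card_poor_le {P : Finset Pt} (hP : Good P) {k : ℕ} {Q : Finset Pt} (hQ : Q ⊆ P)
    {I : Set ℝ} (hI : I.OrdConnected) (s : ℕ) :
    #(Poor P k Q I s) ≤ 2 * #(EdBd P k Q I) + 2 * s + 2 := by
  obtain ⟨Z, _, h2, h3, _⟩ := poor_region hP (k := k) hQ hI (s := s)
  exact (Finset.card_le_card h2).trans h3

/-- **POOR** -/
theorem poor (hDey : StDey) : StPoor := by
  classical
  obtain ⟨C, hC, hD⟩ := hDey
  refine ⟨20 * C + 8, by positivity, fun P k Q I hP hQ hI s => ?_⟩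
  obtain ⟨Z, hZT, hPZ, hZ, hB⟩ := poor_region hP (k := k) hQ hI (s := s)
  have hZQ : Z ⊆ Q := hZT.trans (Tch_subset P k Q I)
  have hdey := hD P k Z I hP (hZQ.trans hQ) hI
  set X : ℝ := (#(EdBd P k Q I) : ℝ) + s + 1 with hX
  have hX1 : 1 ≤ X := by
    have h1 : (0 : ℝ) ≤ (#(EdBd P k Q I) : ℝ) := Nat.cast_nonneg _
    have h2 : (0 : ℝ) ≤ (s : ℝ) := Nat.cast_nonneg _
    rw [hX]; linarith
  have hZr : (#Z : ℝ) ≤ 2 * X := by
    have : (#Z : ℝ) ≤ 2 * (#(EdBd P k Q I) : ℝ) + 2 * s + 2 := by exact_mod_cast hZ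
    rw [hX]; linarith
  have hBr : (#(EdBd P k Z I) : ℝ) ≤ 8 * X := by
    have h0 : (#(EdBd P k Z I) : ℝ) ≤ 5 * (#(EdBd P k Q I) : ℝ) + 4 * s + 8 := by exact_mod_cast hB
    have h1 : (0 : ℝ) ≤ (#(EdBd P k Q I) : ℝ) := Nat.cast_nonneg _
    have h2 : (0 : ℝ) ≤ (s : ℝ) := Nat.cast_nonneg _
    rw [hX]; linarith
  have hTr : (#(Tch P k Z I) : ℝ) ≤ 2 * X := by
    refine le_trans ?_ hZr
    exact_mod_cast Finset.card_le_card (Tch_subset P k Z I)
  have hX0 : 0 ≤ X := by linarith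
  have hpow : ((#(Tch P k Z I) : ℝ) * (#(Tch P k Z I) + #(EdBd P k Z I))) ^ (2 / 3 : ℝ) ≤
      20 * X ^ (4 / 3 : ℝ) := by
    have h1 : (#(Tch P k Z I) : ℝ) * (#(Tch P k Z I) + #(EdBd P k Z I)) ≤ 20 * X ^ 2 := by
      calc (#(Tch P k Z I) : ℝ) * (#(Tch P k Z I) + #(EdBd P k Z I))
          ≤ (2 * X) * (2 * X + 8 * X) := by
            apply mul_le_mul hTr _ (by positivity) (by positivity)
            linarith
        _ = 20 * X ^ 2 := by ring
    calc ((#(Tch P k Z I) : ℝ) * (#(Tch P k Z I) + #(EdBd P k Z I))) ^ (2 / 3 : ℝ)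
        ≤ (20 * X ^ 2) ^ (2 / 3 : ℝ) := Real.rpow_le_rpow (by positivity) h1 (by norm_num)
      _ = 20 ^ (2 / 3 : ℝ) * (X ^ 2) ^ (2 / 3 : ℝ) := Real.mul_rpow (by norm_num) (by positivity)
      _ ≤ 20 * X ^ (4 / 3 : ℝ) := by
          have h2 : (20 : ℝ) ^ (2 / 3 : ℝ) ≤ 20 := by
            calc (20 : ℝ) ^ (2 / 3 : ℝ) ≤ 20 ^ (1 : ℝ) :=
                  Real.rpow_le_rpow_of_exponent_le (by norm_num) (by norm_num)
              _ = 20 := Real.rpow_one _
          have h3 : (X ^ 2) ^ (2 / 3 : ℝ) = X ^ (4 / 3 : ℝ) := by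
            rw [← Real.rpow_natCast X 2, ← Real.rpow_mul hX0]
            norm_num
          rw [h3]
          exact mul_le_mul_of_nonneg_right h2 (Real.rpow_nonneg hX0 _)
  have hlin : X ≤ X ^ (4 / 3 : ℝ) := by
    calc X = X ^ (1 : ℝ) := (Real.rpow_one X).symm
      _ ≤ X ^ (4 / 3 : ℝ) := Real.rpow_le_rpow_of_exponent_le hX1 (by norm_num)
  -- every edge with a poor end is inside `Z` or in its boundary
  have hsub : ({e ∈ EdIn P k Q I | e.1 ∈ Poor P k Q I s ∨ e.2 ∈ Poor P k Q I s} :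
      Finset (Pt × Pt)) ⊆ EdIn P k Z I ∪ EdBd P k Z I := by
    rintro ⟨p, q⟩ he
    rw [Finset.mem_filter] at he
    obtain ⟨h1, h2⟩ := he
    simp only at h2
    have h3 := mem_EdIn.1 h1
    by_cases hp : p ∈ Z <;> by_cases hq : q ∈ Z
    · exact Finset.mem_union_left _ (mem_EdIn.2 ⟨h3.1, hp, hq, h3.2.2.2⟩)
    · refine Finset.mem_union_right _ ?_
      unfold EdBd
      exact Finset.mem_filter.2 ⟨h3.1, Or.inl ⟨hp, hq⟩, h3.2.2.2⟩
    · refine Finset.mem_union_right _ ?_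
      unfold EdBd
      exact Finset.mem_filter.2 ⟨h3.1, Or.inr ⟨hp, hq⟩, h3.2.2.2⟩
    · rcases h2 with h2 | h2
      · exact absurd (hPZ h2) hp
      · exact absurd (hPZ h2) hq
  have hle := (Finset.card_le_card hsub).trans (Finset.card_union_le _ _)
  have hle' : (#{e ∈ EdIn P k Q I | e.1 ∈ Poor P k Q I s ∨ e.2 ∈ Poor P k Q I s} : ℝ) ≤
      #(EdIn P k Z I) + #(EdBd P k Z I) := by exact_mod_cast hle
  calc (#{e ∈ EdIn P k Q I | e.1 ∈ Poor P k Q I s ∨ e.2 ∈ Poor P k Q I s} : ℝ)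
      ≤ #(EdIn P k Z I) + #(EdBd P k Z I) := hle'
    _ ≤ C * (20 * X ^ (4 / 3 : ℝ)) + 8 * X ^ (4 / 3 : ℝ) := by
        refine add_le_add (hdey.trans (mul_le_mul_of_nonneg_left hpow hC.le)) ?_
        exact hBr.trans (mul_le_mul_of_nonneg_left hlin (by norm_num))
    _ = (20 * C + 8) * X ^ (4 / 3 : ℝ) := by ring

end Vale.Agent.P065.UB.H102
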