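import Vale.Agent.P065.UB.Piece

/-!
# P065, upper bound: parallel strips (helper102)

Window `I ⊆ [a, b]`, `Q` of width at most `u₁ - u₀`. Cut `Q` into parallel strips of slope `a` and
height `h ≥ (b - a) (u₁ - u₀)`. A piece rises by at most `h`, so it crosses at most one of the
parallel walls: at most `#Tch + #EdBd` of the `k`-edges cross a wall, for all the walls together.
-/

set_option autoImplicit false

namespace Vale.Agent.P065.UB.H102

open Finset Vale.Agent.P065.UB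

variable {P : Finset Pt} {k : ℕ} {Q : Finset Pt} {I : Set ℝ}

theorem ht_rise {a b : ℝ} (hI : I ⊆ Set.Icc a b) {e : Eg} (he : e ∈ EdIn P k Q I) :
    0 ≤ ht a e.2 - ht a e.1 ∧ ht a e.2 - ht a e.1 ≤ (b - a) * (e.2.1 - e.1.1) := by
  have h1 := EdIn.lt he
  have h2 := hI (mem_EdIn.mp he).2.2.2
  have h3 : ht a e.2 - ht a e.1 = (slE e - a) * (e.2.1 - e.1.1) := by
    have h4 := edge_ht e h1
    change ht (slE e) e.2 = ht (slE e) e.1 at h4
    unfold ht at h4 ⊢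
    linarith
  rw [h3]
  have h5 : 0 < e.2.1 - e.1.1 := by linarith
  exact ⟨mul_nonneg (by linarith [h2.1]) h5.le,
    mul_le_mul_of_nonneg_right (by linarith [h2.2]) h5.le⟩

theorem bf_rise {a b : ℝ} (hI : I ⊆ Set.Icc a b) {e f : Eg} (h : Bf P k Q I e f) :
    0 ≤ ht a f.1 - ht a e.2 ∧ ht a f.1 - ht a e.2 ≤ (b - a) * (f.1.1 - e.2.1) := by
  induction h with
  | single h => rw [h.2.2.1]; simp
  | tail _ h ih =>
    have h1 := h.2.2.1
    have h2 := ht_rise hI h.1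
    rw [← h1]
    constructor
    · linarith [ih.1, h2.1]
    · linarith [ih.2, h2.2]

/-- index of the strip -/
noncomputable def sidx (a h : ℝ) (p : Pt) : ℤ := ⌊ht a p / h⌋

open Classical in
/-- the edges joining different strips -/
noncomputable def CrS (P : Finset Pt) (k : ℕ) (Q : Finset Pt) (I : Set ℝ) (a h : ℝ) :
    Finset (Pt × Pt) := {e ∈ EdIn P k Q I | sidx a h e.1 ≠ sidx a h e.2}

theorem mem_CrS {a h : ℝ} {e : Eg} :
    e ∈ CrS P k Q I a h ↔ e ∈ EdIn P k Q I ∧ sidx a h e.1 ≠ sidx a h e.2 := by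
  classical
  unfold CrS
  rw [mem_filter]

theorem sidx_mono {a h : ℝ} (hh : 0 < h) {p q : Pt} (hpq : ht a p ≤ ht a q) :
    sidx a h p ≤ sidx a h q := by
  unfold sidx
  exact Int.floor_le_floor (div_le_div_of_nonneg_right hpq hh.le)

theorem sidx_two {a h : ℝ} (hh : 0 < h) {p q : Pt} (hpq : sidx a h p + 2 ≤ sidx a h q) :
    h < ht a q - ht a p := by
  unfold sidx at hpq
  have h1 := Int.floor_le (ht a q / h)
  have h2 := Int.lt_floor_add_one (ht a p / h)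
  have h3 : ((⌊ht a p / h⌋ : ℤ) : ℝ) + 2 ≤ ((⌊ht a q / h⌋ : ℤ) : ℝ) := by exact_mod_cast hpq
  have h4 : ht a p / h + 1 < ht a q / h := by linarith
  have h5 : ht a p / h + 1 = (ht a p + h) / h := by field_simp
  rw [h5, div_lt_div_iff_of_pos_right hh] at h4
  linarith

/-- **STRIPS**: at most `#Pcs` edges cross the walls -/
theorem card_CrS (hL : Loc P k Q I) {a b u₀ u₁ h : ℝ} (hI : I ⊆ Set.Icc a b)
    (hQ : ∀ p ∈ Q, u₀ ≤ p.1 ∧ p.1 ≤ u₁) (hab : a ≤ b)
    (hpos : 0 < h) (hh : (b - a) * (u₁ - u₀) ≤ h) :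
    #(CrS P k Q I a h) ≤ #(Pcs P k Q I) := by
  classical
  have key : ∀ e f : Eg, e ∈ CrS P k Q I a h → f ∈ CrS P k Q I a h → Bf P k Q I e f → False := by
    intro e f he hf hb
    rw [mem_CrS] at he hf
    have h1 := ht_rise hI he.1
    have h2 := ht_rise hI hf.1
    have h3 := bf_rise hI hb
    have m1 := sidx_mono (a := a) hpos (p := e.1) (q := e.2) (by linarith [h1.1])
    have m2 := sidx_mono (a := a) hpos (p := f.1) (q := f.2) (by linarith [h2.1])
    have m3 := sidx_mono (a := a) hpos (p := e.2) (q := f.1) (by linarith [h3.1])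
    have n1 : sidx a h e.1 + 1 ≤ sidx a h e.2 := by
      have := lt_of_le_of_ne m1 he.2
      omega
    have n2 : sidx a h f.1 + 1 ≤ sidx a h f.2 := by
      have := lt_of_le_of_ne m2 hf.2
      omega
    have h4 := sidx_two (a := a) hpos (p := e.1) (q := f.2) (by omega)
    have q1 := hQ e.1 (mem_EdIn.mp he.1).2.1
    have q2 := hQ f.2 (mem_EdIn.mp hf.1).2.2.1
    have h5 : ht a f.2 - ht a e.1 ≤ (b - a) * (f.2.1 - e.1.1) := by
      nlinarith [h1.2, h2.2, h3.2]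
    have h6 : (b - a) * (f.2.1 - e.1.1) ≤ (b - a) * (u₁ - u₀) :=
      mul_le_mul_of_nonneg_left (by linarith [q1.1, q2.2]) (by linarith)
    linarith
  refine card_le_card_of_injOn (root P k Q I) ?_ ?_
  · intro e he
    exact root_mem_Pcs (mem_CrS.mp he).1
  · intro e he f hf hef
    rcases compar hL.good hef with h1 | h1 | h1
    · exact h1
    · exact absurd h1 (key e f he hf)
    · exact absurd h1 (key f e hf he)

open Classical in
/-- the strip number `j` -/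
noncomputable def Sj (Q : Finset Pt) (a h : ℝ) (j : ℤ) : Finset Pt := {p ∈ Q | sidx a h p = j}

theorem mem_Sj {a h : ℝ} {j : ℤ} {p : Pt} : p ∈ Sj Q a h j ↔ p ∈ Q ∧ sidx a h p = j := by
  classical
  unfold Sj
  rw [mem_filter]

theorem mem_Sj_iff {a h : ℝ} (hh : 0 < h) {j : ℤ} {p : Pt} :
    p ∈ Sj Q a h j ↔ p ∈ Q ∧ h * j ≤ ht a p ∧ ht a p < h * j + h := by
  rw [mem_Sj]
  unfold sidx
  rw [Int.floor_eq_iff, le_div_iff₀ hh, div_lt_iff₀ hh]
  constructor
  · rintro ⟨h1, h2, h3⟩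
    exact ⟨h1, by linarith, by linarith⟩
  · rintro ⟨h1, h2, h3⟩
    exact ⟨h1, by linarith, by linarith⟩

theorem Sj_subset {a h : ℝ} {j : ℤ} : Sj Q a h j ⊆ Q := fun _ hp => (mem_Sj.mp hp).1

open Classical in
/-- the numbers of the strips -/
noncomputable def Jx (Q : Finset Pt) (a h : ℝ) : Finset ℤ := Q.image (sidx a h)

theorem sum_EdIn_Sj (a h : ℝ) : #(EdIn P k Q I) ≤
    ∑ j ∈ Jx Q a h, #(EdIn P k (Sj Q a h j) I) + #(CrS P k Q I a h) := by
  classical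
  have h1 : EdIn P k Q I ⊆ ((Jx Q a h).biUnion fun j => EdIn P k (Sj Q a h j) I) ∪
      CrS P k Q I a h := by
    intro e he
    rw [mem_union, mem_biUnion]
    have h2 := mem_EdIn.mp he
    by_cases h3 : sidx a h e.1 = sidx a h e.2
    · left
      refine ⟨sidx a h e.1, mem_image_of_mem _ h2.2.1, mem_EdIn.mpr ⟨h2.1, ?_, ?_, h2.2.2.2⟩⟩
      · exact mem_Sj.mpr ⟨h2.2.1, rfl⟩
      · exact mem_Sj.mpr ⟨h2.2.2.1, h3.symm⟩
    · right
      exact mem_CrS.mpr ⟨he, h3⟩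
  exact ((card_le_card h1).trans (card_union_le _ _)).trans
    (Nat.add_le_add_right card_biUnion_le _)

theorem sum_Tch_Sj (a h : ℝ) :
    ∑ j ∈ Jx Q a h, #(Tch P k (Sj Q a h j) I) ≤ #(Tch P k Q I) := by
  classical
  rw [← card_biUnion]
  · refine card_le_card fun v hv => ?_
    rw [mem_biUnion] at hv
    obtain ⟨j, _, hv⟩ := hv
    rw [mem_Tch] at hv ⊢
    obtain ⟨h1, e, he, h2⟩ := hv
    refine ⟨Sj_subset h1, e, ?_, h2⟩
    have h3 := mem_EdIn.mp he
    exact mem_EdIn.mpr ⟨h3.1, Sj_subset h3.2.1, Sj_subset h3.2.2.1, h3.2.2.2⟩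
  · intro i _ j _ hij
    change Disjoint _ _
    rw [disjoint_left]
    intro v hv hv'
    have h1 := (mem_Sj.mp (mem_Tch.mp hv).1).2
    have h2 := (mem_Sj.mp (mem_Tch.mp hv').1).2
    exact hij (h1.symm.trans h2)

theorem sum_EdBd_Sj (a h : ℝ) : ∑ j ∈ Jx Q a h, #(EdBd P k (Sj Q a h j) I) ≤
    #(EdBd P k Q I) + 2 * #(CrS P k Q I a h) := by
  classical
  -- edges with the first / the second end in the strip
  have h0 : ∀ j ∈ Jx Q a h, #(EdBd P k (Sj Q a h j) I) ≤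
      #{e ∈ EdBd P k Q I | (e.1 ∈ Q ∧ sidx a h e.1 = j) ∨ (e.2 ∈ Q ∧ sidx a h e.2 = j)} +
      (#{e ∈ CrS P k Q I a h | sidx a h e.1 = j} + #{e ∈ CrS P k Q I a h | sidx a h e.2 = j}) := by
    intro j _
    have h1 : EdBd P k (Sj Q a h j) I ⊆
        ({e ∈ EdBd P k Q I | (e.1 ∈ Q ∧ sidx a h e.1 = j) ∨ (e.2 ∈ Q ∧ sidx a h e.2 = j)} :
          Finset (Pt × Pt)) ∪
        (({e ∈ CrS P k Q I a h | sidx a h e.1 = j} : Finset (Pt × Pt)) ∪
        ({e ∈ CrS P k Q I a h | sidx a h e.2 = j} : Finset (Pt × Pt))) := by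
      intro e he
      rw [mem_EdBd] at he
      obtain ⟨h1, h2, h3⟩ := he
      simp only [mem_union, mem_filter, mem_CrS, mem_EdBd, mem_EdIn]
      simp only [mem_Sj] at h2
      by_cases c1 : e.1 ∈ Q <;> by_cases c2 : e.2 ∈ Q
      · rcases h2 with ⟨h2, h4⟩ | ⟨h2, h4⟩
        · right; left
          refine ⟨⟨⟨h1, c1, c2, h3⟩, ?_⟩, h2.2⟩
          intro h5
          exact h4 ⟨c2, h5 ▸ h2.2⟩
        · right; right
          refine ⟨⟨⟨h1, c1, c2, h3⟩, ?_⟩, h4.2⟩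
          intro h5
          exact h2 ⟨c1, h5.trans h4.2⟩
      · left
        refine ⟨⟨h1, Or.inl ⟨c1, c2⟩, h3⟩, ?_⟩
        rcases h2 with ⟨h2, h4⟩ | ⟨h2, h4⟩
        · exact Or.inl h2
        · exact absurd h4.1 c2
      · left
        refine ⟨⟨h1, Or.inr ⟨c1, c2⟩, h3⟩, ?_⟩
        rcases h2 with ⟨h2, h4⟩ | ⟨h2, h4⟩
        · exact absurd h2.1 c1
        · exact Or.inr h4
      · rcases h2 with ⟨h2, h4⟩ | ⟨h2, h4⟩
        · exact absurd h2.1 c1
        · exact absurd h4.1 c2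
    refine (card_le_card h1).trans ((card_union_le _ _).trans ?_)
    exact Nat.add_le_add_left (card_union_le _ _) _
  have h1 := sum_le_sum h0
  rw [sum_add_distrib, sum_add_distrib] at h1
  have h2 : ∑ j ∈ Jx Q a h, #{e ∈ EdBd P k Q I |
      (e.1 ∈ Q ∧ sidx a h e.1 = j) ∨ (e.2 ∈ Q ∧ sidx a h e.2 = j)} ≤ #(EdBd P k Q I) := by
    rw [← card_biUnion]
    · refine card_le_card fun e he => ?_
      rw [mem_biUnion] at he
      obtain ⟨j, _, he⟩ := he
      exact (mem_filter.mp he).1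
    · intro i _ j _ hij
      change Disjoint _ _
      rw [disjoint_left]
      intro e he he'
      obtain ⟨g1, g2⟩ := mem_filter.mp he
      obtain ⟨_, g3⟩ := mem_filter.mp he'
      rw [mem_EdBd] at g1
      rcases g1.2.1 with ⟨c1, c2⟩ | ⟨c1, c2⟩
      · have e1 : sidx a h e.1 = i := by
          rcases g2 with g | g
          · exact g.2
          · exact absurd g.1 c2
        have e2 : sidx a h e.1 = j := by
          rcases g3 with g | g
          · exact g.2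
          · exact absurd g.1 c2
        exact hij (e1.symm.trans e2)
      · have e1 : sidx a h e.2 = i := by
          rcases g2 with g | g
          · exact absurd g.1 c1
          · exact g.2
        have e2 : sidx a h e.2 = j := by
          rcases g3 with g | g
          · exact absurd g.1 c1
          · exact g.2
        exact hij (e1.symm.trans e2)
  have h3 : ∀ g : Pt × Pt → ℤ,
      ∑ j ∈ Jx Q a h, #{e ∈ CrS P k Q I a h | g e = j} ≤ #(CrS P k Q I a h) := by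
    intro g
    rw [← card_biUnion]
    · refine card_le_card fun e he => ?_
      rw [mem_biUnion] at he
      obtain ⟨j, _, he⟩ := he
      exact (mem_filter.mp he).1
    · intro i _ j _ hij
      change Disjoint _ _
      rw [disjoint_left]
      intro e he he'
      exact hij ((mem_filter.mp he).2.symm.trans (mem_filter.mp he').2)
  have h4 := h3 (fun e => sidx a h e.1)
  have h5 := h3 (fun e => sidx a h e.2)
  omega

theorem rp43 {x : ℝ} (hx : 0 ≤ x) : x ^ (4 / 3 : ℝ) = x * x ^ (1 / 3 : ℝ) := by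
  rw [← Real.rpow_one_add' hx (by norm_num)]
  norm_num

theorem rp13_cube {x : ℝ} (hx : 0 ≤ x) : (x ^ (1 / 3 : ℝ)) ^ 3 = x := by
  rw [← Real.rpow_natCast, ← Real.rpow_mul hx]
  norm_num

theorem rp23 {x y C : ℝ} (hx : 0 ≤ x) (hxy : x ≤ y) (hC : 0 ≤ C) {E : ℝ}
    (hE : E ≤ C * (x * y) ^ (2 / 3 : ℝ)) : E ≤ C * (y * y ^ (1 / 3 : ℝ)) := by
  have hy : 0 ≤ y := hx.trans hxy
  have h0 : y * y ^ (1 / 3 : ℝ) = (y * y) ^ (2 / 3 : ℝ) := by
    rw [Real.mul_rpow hy hy, ← Real.rpow_add_of_nonneg hy (by norm_num) (by norm_num), ← rp43 hy]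
    norm_num
  rw [h0]
  refine hE.trans (mul_le_mul_of_nonneg_left ?_ hC)
  exact Real.rpow_le_rpow (mul_nonneg hx hy) (mul_le_mul_of_nonneg_right hxy hy) (by norm_num)

/-- the arithmetic of the choice of a strip -/
theorem strips_arith {ι : Type*} (J : Finset ι) (Ej Bj : ι → ℝ) {E B K C₁ : ℝ} (hC₁ : 1 ≤ C₁)
    (hK : 1 ≤ K) (hB : 12 * (12 * C₁) ^ 3 * K ^ 3 ≤ B) (hE : B ^ (4 / 3 : ℝ) ≤ K * E)
    (hBj0 : ∀ j, 0 ≤ Bj j) (hEj0 : ∀ j, 0 ≤ Ej j) (hE0 : 0 ≤ E)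
    (s1 : E ≤ ∑ j ∈ J, Ej j + B) (s2 : ∑ j ∈ J, Bj j ≤ 3 * B)
    (s3 : ∀ j ∈ J, Ej j ≤ C₁ * (Bj j * (Bj j) ^ (1 / 3 : ℝ)))
    (s5 : ∀ j ∈ J, 12 * (12 * C₁) ^ 3 * K ^ 3 * Ej j < E) : False := by
  set M : ℝ := 12 * C₁ with hM
  have hM1 : 12 ≤ M := by linarith
  have hMK : 0 < M * K := by positivity
  have hM3 : (0 : ℝ) < M ^ 3 := by positivity
  have hK3 : (1 : ℝ) ≤ K ^ 3 := one_le_pow₀ hK
  have hBpos : 0 < B := by
    have : 0 < 12 * M ^ 3 * K ^ 3 := by positivity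
    linarith
  -- the threshold
  set y : ℝ := B ^ (1 / 3 : ℝ) / (M * K) with hy
  have hBr : 0 < B ^ (1 / 3 : ℝ) := Real.rpow_pos_of_pos hBpos _
  have hB3 : (B ^ (1 / 3 : ℝ)) ^ 3 = B := rp13_cube hBpos.le
  have hB43 : B ^ (4 / 3 : ℝ) = B * B ^ (1 / 3 : ℝ) := rp43 hBpos.le
  have hypos : 0 < y := by positivity
  have hy3 : y ^ 3 * (M ^ 3 * K ^ 3) = B := by
    rw [hy, div_pow, hB3, mul_pow]
    field_simp
  -- each strip
  have hp : 0 < 12 * M ^ 3 * K ^ 3 * y ^ 3 := by positivity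
  have s6 : ∀ j ∈ J, 12 * M ^ 3 * K ^ 3 * y ^ 3 * Ej j ≤ E * Bj j + 12 * M ^ 3 * K ^ 3 * y ^ 3 *
      (C₁ * y * Bj j) := by
    intro j hj
    have hb := hBj0 j
    have he := hEj0 j
    rcases le_or_gt (Bj j) (y ^ 3) with h1 | h1
    · have h2 : (Bj j) ^ (1 / 3 : ℝ) ≤ y := by
        have := Real.rpow_le_rpow hb h1 (show (0 : ℝ) ≤ 1 / 3 by norm_num)
        rwa [← Real.rpow_natCast, ← Real.rpow_mul hypos.le, show ((3 : ℕ) : ℝ) * (1 / 3) = 1 by
          norm_num, Real.rpow_one] at this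
      have h3 : Ej j ≤ C₁ * y * Bj j := by
        refine (s3 j hj).trans ?_
        have h31 := mul_le_mul_of_nonneg_left h2 hb
        have h32 := mul_le_mul_of_nonneg_left h31 (show (0 : ℝ) ≤ C₁ by linarith)
        linarith
      have h4 := mul_le_mul_of_nonneg_left h3 hp.le
      have h5 := mul_nonneg hE0 hb
      linarith
    · have h2 := s5 j hj
      have h3 : y ^ 3 * (12 * M ^ 3 * K ^ 3 * Ej j) ≤ Bj j * E := by
        refine mul_le_mul h1.le h2.le ?_ hb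
        positivity
      have h4 : 0 ≤ 12 * M ^ 3 * K ^ 3 * y ^ 3 * (C₁ * y * Bj j) := by positivity
      linarith
  have s7 := sum_le_sum s6
  rw [← mul_sum, sum_add_distrib, ← mul_sum, ← mul_sum, ← mul_sum] at s7
  have c0 : 12 * M ^ 3 * K ^ 3 * y ^ 3 = 12 * B := by rw [← hy3]; ring
  rw [c0] at s7
  have c1 : E * ∑ j ∈ J, Bj j ≤ E * (3 * B) := mul_le_mul_of_nonneg_left s2 hE0
  have c2 : C₁ * y * ∑ j ∈ J, Bj j ≤ C₁ * y * (3 * B) :=
    mul_le_mul_of_nonneg_left s2 (by positivity)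
  have c3 : 12 * B * (E - B) ≤ 12 * B * ∑ j ∈ J, Ej j :=
    mul_le_mul_of_nonneg_left (by linarith) (by positivity)
  have c4 : 12 * B * (C₁ * y * ∑ j ∈ J, Bj j) ≤ 12 * B * (C₁ * y * (3 * B)) :=
    mul_le_mul_of_nonneg_left c2 (by positivity)
  have c5 : 12 * (E - B) ≤ 3 * E + 36 * (C₁ * y * B) := by
    have : B * (12 * (E - B)) ≤ B * (3 * E + 36 * (C₁ * y * B)) := by
      have e1 : B * (3 * E + 36 * (C₁ * y * B)) = E * (3 * B) + 12 * B * (C₁ * y * (3 * B)) := by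
        ring
      have e2 : B * (12 * (E - B)) = 12 * B * (E - B) := by ring
      rw [e1, e2]
      linarith
    exact le_of_mul_le_mul_left this hBpos
  have c6 : 12 * (C₁ * y * B) ≤ E := by
    have h1 : 12 * C₁ * y * K = B ^ (1 / 3 : ℝ) := by
      rw [hy, ← hM]
      field_simp
    have h2 : K * (12 * (C₁ * y * B)) ≤ K * E := by
      calc K * (12 * (C₁ * y * B)) = B * (12 * C₁ * y * K) := by ring
        _ = B * B ^ (1 / 3 : ℝ) := by rw [h1]
        _ ≤ K * E := by rw [← hB43]; exact hE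
    exact le_of_mul_le_mul_left h2 (by linarith)
  have c7 : 12 * B ≤ E := by
    have h1 : 12 * K ≤ B ^ (1 / 3 : ℝ) := by
      by_contra h2
      push Not at h2
      have h3 : (B ^ (1 / 3 : ℝ)) ^ 3 < (12 * K) ^ 3 := pow_lt_pow_left₀ h2 hBr.le (by norm_num)
      rw [hB3] at h3
      have h4 : (12 * K) ^ 3 ≤ M ^ 3 * K ^ 3 := by
        rw [← mul_pow]
        exact pow_le_pow_left₀ (by linarith) (mul_le_mul_of_nonneg_right hM1 (by linarith)) 3
      have h5 : 0 < M ^ 3 * K ^ 3 := by positivity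
      linarith
    have h2 : K * (12 * B) ≤ K * E := by
      calc K * (12 * B) = B * (12 * K) := by ring
        _ ≤ B * B ^ (1 / 3 : ℝ) := mul_le_mul_of_nonneg_left h1 hBpos.le
        _ ≤ K * E := by rw [← hB43]; exact hE
    exact le_of_mul_le_mul_left h2 (by linarith)
  linarith

/-- **STRIPS**, main form: if `(Q, I)` has at least `B ^ (4/3) / K` edges, `B = #Tch + #EdBd`, one
strip of slope `a` and height `h` carries a share `K ^ (-3) / C` of the edges. -/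
theorem strips (hDey : StDey) : ∃ C : ℝ, 1 ≤ C ∧ ∀ (P : Finset Pt) (k : ℕ) (Q : Finset Pt)
    (I : Set ℝ), Good P → Q ⊆ P → I.OrdConnected → ∀ a b u₀ u₁ h : ℝ, I ⊆ Set.Icc a b →
    (∀ p ∈ Q, u₀ ≤ p.1 ∧ p.1 ≤ u₁) → a ≤ b → 0 < h → (b - a) * (u₁ - u₀) ≤ h →
    ∀ K : ℝ, 1 ≤ K → C * K ^ 3 ≤ (#(Tch P k Q I) : ℝ) + #(EdBd P k Q I) →
    ((#(Tch P k Q I) : ℝ) + #(EdBd P k Q I)) ^ (4 / 3 : ℝ) ≤ K * #(EdIn P k Q I) →
    ∃ j : ℤ, (#(EdIn P k Q I) : ℝ) ≤ C * K ^ 3 * #(EdIn P k (Sj Q a h j) I) ∧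
      #(EdBd P k (Sj Q a h j) I) ≤ 3 * #(EdBd P k Q I) + 2 * #(Tch P k Q I) := by
  classical
  obtain ⟨C₀, hC₀, dey₀⟩ := hDey
  have hC₁ : 1 ≤ max C₀ 1 := le_max_right _ _
  have hC₀₁ : C₀ ≤ max C₀ 1 := le_max_left _ _
  generalize max C₀ 1 = C₁ at hC₁ hC₀₁
  refine ⟨12 * (12 * C₁) ^ 3, ?_, ?_⟩
  · have : (1 : ℝ) ≤ (12 * C₁) ^ 3 := one_le_pow₀ (by linarith)
    linarith
  intro P k Q I hP hQ hI a b u₀ u₁ h hIab hQu hab hpos hh K hK hB hE
  have hL : Loc P k Q I := ⟨hP, hQ, hI⟩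
  -- one edge per piece crosses
  have hcr : #(CrS P k Q I a h) ≤ #(Tch P k Q I) + #(EdBd P k Q I) :=
    (card_CrS hL hIab hQu hab hpos hh).trans (card_Pcs hL)
  by_contra hcon
  push Not at hcon
  have s4 : ∀ j ∈ Jx Q a h, (#(EdBd P k (Sj Q a h j) I)) ≤
      3 * #(EdBd P k Q I) + 2 * #(Tch P k Q I) := by
    intro j hj
    have h2 := sum_EdBd_Sj (P := P) (k := k) (Q := Q) (I := I) a h
    have h3 := single_le_sum (f := fun j => #(EdBd P k (Sj Q a h j) I)) (s := Jx Q a h)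
      (fun _ _ => Nat.zero_le _) hj
    omega
  refine strips_arith (Jx Q a h) (fun j => (#(EdIn P k (Sj Q a h j) I) : ℝ))
    (fun j => (#(Tch P k (Sj Q a h j) I) : ℝ) + #(EdBd P k (Sj Q a h j) I)) hC₁ hK hB hE
    (fun j => by positivity) (fun j => by positivity) (Nat.cast_nonneg _) ?_ ?_ ?_ ?_
  · have h1 := sum_EdIn_Sj (P := P) (k := k) (Q := Q) (I := I) a h
    have h2 : #(EdIn P k Q I) ≤ ∑ j ∈ Jx Q a h, #(EdIn P k (Sj Q a h j) I) +
      (#(Tch P k Q I) + #(EdBd P k Q I)) := by omega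
    exact_mod_cast h2
  · have h1 := sum_Tch_Sj (P := P) (k := k) (Q := Q) (I := I) a h
    have h2 := sum_EdBd_Sj (P := P) (k := k) (Q := Q) (I := I) a h
    have h3 : ∑ j ∈ Jx Q a h, #(Tch P k (Sj Q a h j) I) +
        ∑ j ∈ Jx Q a h, #(EdBd P k (Sj Q a h j) I) ≤
        3 * (#(Tch P k Q I) + #(EdBd P k Q I)) := by
      omega
    rw [sum_add_distrib]
    exact_mod_cast h3
  · intro j _
    have h1 := dey₀ P k (Sj Q a h j) I hP (Sj_subset.trans hQ) hI
    refine rp23 (Nat.cast_nonneg _) (le_add_of_nonneg_right (Nat.cast_nonneg _)) (by linarith)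
      (h1.trans ?_)
    exact mul_le_mul_of_nonneg_right hC₀₁ (by positivity)
  · intro j hj
    by_contra h1
    have h2 := hcon j (not_lt.mp h1)
    have h3 := s4 j hj
    omega

end Vale.Agent.P065.UB.H102
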