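import Vale.Agent.P065.UB.H102.Strips
import Vale.Agent.P065.UB.P.Defs

/-!
# P065, upper bound, line P: `StStrips` (helper102)
-/

set_option autoImplicit false

namespace Vale.Agent.P065.UB.H102

open Finset Vale.Agent.P065.UB

theorem stStrips : P.StStrips := by
  classical
  intro P k Q I m θ h hP hQ hI hs hx hθ hh
  have hL : Loc P k Q I := ⟨hP, hQ, hI⟩
  rcases Q.eq_empty_or_nonempty with h0 | ⟨p₀, hp₀⟩
  · have h1 : EdIn P k Q I = ∅ := by
      refine eq_empty_of_forall_notMem fun e he => ?_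
      have := (mem_EdIn.mp he).2.1
      rw [h0] at this
      exact absurd this (notMem_empty _)
    rw [h1, sum_empty]
    positivity
  by_cases hE : (EdIn P k Q I) = ∅
  · rw [hE, sum_empty]
    positivity
  obtain ⟨e₀, he₀⟩ := nonempty_iff_ne_empty.mpr hE
  have hθ0 : 0 ≤ θ := by
    have := hs _ (mem_EdIn.mp he₀).2.2.2
    linarith
  obtain ⟨pm, hpm, hmin⟩ := exists_min_image Q (fun p => p.1) ⟨p₀, hp₀⟩
  have hQ1 : ∀ p ∈ Q, pm.1 ≤ p.1 ∧ p.1 ≤ pm.1 + 1 := fun p hp => ⟨hmin p hp, hx p hp pm hpm⟩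
  have hIc : I ⊆ Set.Icc m (m + θ) := fun s hs' => hs s hs'
  have hr : (m + θ - m) * (pm.1 + 1 - pm.1) ≤ h := by
    have : (m + θ - m) * (pm.1 + 1 - pm.1) = θ := by ring
    rw [this]
    exact hθ
  have h1 := card_CrS (a := m) (h := h) hL hIc hQ1 (by linarith) hh hr
  have h2 := card_Pcs hL
  have h3 : ∀ e ∈ EdIn P k Q I, (⌊ht m e.2 / h⌋ - ⌊ht m e.1 / h⌋ : ℤ) ≤
      if sidx m h e.1 ≠ sidx m h e.2 then 1 else 0 := by
    intro e he
    split_ifs with hc
    · by_contra hcon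
      push Not at hcon
      have h4 : sidx m h e.1 + 2 ≤ sidx m h e.2 := by
        unfold sidx
        omega
      have h5 := sidx_two hh h4
      have h6 := ht_rise hIc he
      have h7 := EdIn.lt he
      have q1 := hQ1 e.1 (mem_EdIn.mp he).2.1
      have q2 := hQ1 e.2 (mem_EdIn.mp he).2.2.1
      have h8 : (m + θ - m) * (e.2.1 - e.1.1) ≤ (m + θ - m) * (pm.1 + 1 - pm.1) :=
        mul_le_mul_of_nonneg_left (by linarith [q1.1, q2.2]) (by linarith)
      linarith [h6.2]
    · push Not at hc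
      unfold sidx at hc
      omega
  have h4 := sum_le_sum h3
  have h5 : ∑ e ∈ EdIn P k Q I, (if sidx m h e.1 ≠ sidx m h e.2 then (1 : ℤ) else 0) =
      #(CrS P k Q I m h) := by
    rw [sum_ite, sum_const_zero, add_zero, sum_const, nsmul_eq_mul, mul_one]
    rfl
  rw [h5] at h4
  omega

end Vale.Agent.P065.UB.H102
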